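import Vale.Agent.P101.Basic

/-! # Actions on C⋆-algebras, fixed points, equivariant commuting copies -/

namespace Vale.Agent.P095

theorem continuous_hom {E F : Type*} [CStarAlgebra E] [CStarAlgebra F] (φ : E →⋆ₐ[ℂ] F) :
    Continuous φ :=
  AddMonoidHomClass.continuous_of_bound φ 1 fun d => by
    rw [one_mul]
    exact NonUnitalStarAlgHom.norm_apply_le φ d

/-- `σ` is an action of `G` by `*`-homomorphisms. -/
structure IsAct {G : Type*} [Group G] {E : Type*} [CStarAlgebra E]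
    (σ : G → E →⋆ₐ[ℂ] E) : Prop where
  one : ∀ x, σ 1 x = x
  mul : ∀ g h x, σ (g * h) x = σ g (σ h x)

/-- The fixed-point algebra. -/
def fixAlg {G : Type*} {E : Type*} [CStarAlgebra E] (σ : G → E →⋆ₐ[ℂ] E) :
    StarSubalgebra ℂ E where
  carrier := {x | ∀ g, σ g x = x}
  mul_mem' := by
    intro a b ha hb g
    rw [map_mul, ha g, hb g]
  one_mem' := fun g => map_one (σ g)
  add_mem' := by
    intro a b ha hb g
    rw [map_add, ha g, hb g]
  zero_mem' := fun g => map_zero (σ g)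
  algebraMap_mem' := fun r g => AlgHomClass.commutes (σ g) r
  star_mem' := by
    intro a ha g
    rw [map_star, ha g]

theorem mem_fixAlg {G : Type*} {E : Type*} [CStarAlgebra E] {σ : G → E →⋆ₐ[ℂ] E} {x : E} :
    x ∈ fixAlg σ ↔ ∀ g, σ g x = x := Iff.rfl

instance fixAlg.isClosed {G : Type*} {E : Type*} [CStarAlgebra E] (σ : G → E →⋆ₐ[ℂ] E) :
    IsClosed ((fixAlg σ : StarSubalgebra ℂ E) : Set E) := by
  have h : ((fixAlg σ : StarSubalgebra ℂ E) : Set E) = ⋂ g, {x | σ g x = x} := by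
    ext x
    simp [mem_fixAlg]
  rw [h]
  exact isClosed_iInter fun g => isClosed_eq (continuous_hom (σ g)) continuous_id

noncomputable instance fixAlg.instCStarAlgebra {G : Type*} {E : Type*} [CStarAlgebra E]
    (σ : G → E →⋆ₐ[ℂ] E) : CStarAlgebra (fixAlg σ) :=
  StarSubalgebra.cstarAlgebra (fixAlg σ)

/-- Finitely generated invariant star subalgebras have infinitely many commuting equivariant
contractive copies. -/
def HasEqCopies {G : Type*} {E : Type*} [CStarAlgebra E] (σ : G → E →⋆ₐ[ℂ] E) : Prop :=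
  ∀ S : Set E, S.Finite → (∀ g, ∀ x ∈ S, σ g x ∈ S) →
    ∃ ρ : ℕ → (StarAlgebra.adjoin ℂ S →⋆ₐ[ℂ] E),
      (∀ i j, i ≠ j → ∀ x y, Commute (ρ i x) (ρ j y)) ∧
      (∀ j x, ‖ρ j x‖ ≤ ‖(x : E)‖) ∧
      (∀ g j (x y : StarAlgebra.adjoin ℂ S), (y : E) = σ g (x : E) → ρ j y = σ g (ρ j x))

end Vale.Agent.P095
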