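import Vale.Agent.P095.CharPred

/-! # The asymptotically central and invariant sequences form an algebra -/

open Filter Topology BoundedContinuousFunction

universe u v

namespace Vale.Agent.P095

open Vale.Agent.P101

variable {G : Type v} [Group G] {A : Type u} [CStarAlgebra A] (α : Action G A)
  (ω : Ultrafilter ℕ)

theorem isInvCen_mul : ∀ {a c : ℕ →ᵇ A}, IsInvCen α ω a → IsInvCen α ω c →
    IsInvCen α ω (a * c) := by
  rintro a c ⟨ha, ha'⟩ ⟨hc, hc'⟩
  constructor
  · intro b
    have h1 : Tendsto (fun n => ‖a‖ * ‖c n * b - b * c n‖ + ‖a n * b - b * a n‖ * ‖c‖) ω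
        (𝓝 0) := by
      simpa using ((hc b).const_mul ‖a‖).add ((ha b).mul_const ‖c‖)
    refine squeeze_zero (fun n => norm_nonneg _) (fun n => ?_) h1
    have e1 : (a * c) n * b - b * (a * c) n
        = a n * (c n * b - b * c n) + (a n * b - b * a n) * c n := by
      change a n * c n * b - b * (a n * c n) = _
      noncomm_ring
    rw [e1]
    refine (norm_add_le _ _).trans (add_le_add ?_ ?_)
    · exact (norm_mul_le _ _).trans
        (mul_le_mul_of_nonneg_right (a.norm_coe_le_norm n) (norm_nonneg _))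
    · exact (norm_mul_le _ _).trans
        (mul_le_mul_of_nonneg_left (c.norm_coe_le_norm n) (norm_nonneg _))
  · intro g
    have h1 : Tendsto (fun n => ‖α g (a n) - a n‖ * ‖c‖ + ‖a‖ * ‖α g (c n) - c n‖) ω
        (𝓝 0) := by
      simpa using ((ha' g).mul_const ‖c‖).add ((hc' g).const_mul ‖a‖)
    refine squeeze_zero (fun n => norm_nonneg _) (fun n => ?_) h1
    have e1 : α g ((a * c) n) - (a * c) n
        = (α g (a n) - a n) * α g (c n) + a n * (α g (c n) - c n) := by
      change α g (a n * c n) - a n * c n = _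
      rw [map_mul]
      noncomm_ring
    rw [e1]
    have h2 : ‖α g (c n)‖ ≤ ‖c‖ :=
      (NonUnitalStarAlgHom.norm_apply_le ((α g : A ≃⋆ₐ[ℂ] A) : A →⋆ₐ[ℂ] A) (c n)).trans
        (c.norm_coe_le_norm n)
    refine (norm_add_le _ _).trans (add_le_add ?_ ?_)
    · exact (norm_mul_le _ _).trans (mul_le_mul_of_nonneg_left h2 (norm_nonneg _))
    · exact (norm_mul_le _ _).trans
        (mul_le_mul_of_nonneg_right (a.norm_coe_le_norm n) (norm_nonneg _))

theorem isInvCen_add : ∀ {a c : ℕ →ᵇ A}, IsInvCen α ω a → IsInvCen α ω c →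
    IsInvCen α ω (a + c) := by
  rintro a c ⟨ha, ha'⟩ ⟨hc, hc'⟩
  constructor
  · intro b
    have h1 : Tendsto (fun n => ‖a n * b - b * a n‖ + ‖c n * b - b * c n‖) ω (𝓝 0) := by
      simpa using (ha b).add (hc b)
    refine squeeze_zero (fun n => norm_nonneg _) (fun n => ?_) h1
    have e1 : (a + c) n * b - b * (a + c) n
        = (a n * b - b * a n) + (c n * b - b * c n) := by
      change (a n + c n) * b - b * (a n + c n) = _
      noncomm_ring
    rw [e1]
    exact norm_add_le _ _
  · intro g
    have h1 : Tendsto (fun n => ‖α g (a n) - a n‖ + ‖α g (c n) - c n‖) ω (𝓝 0) := by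
      simpa using (ha' g).add (hc' g)
    refine squeeze_zero (fun n => norm_nonneg _) (fun n => ?_) h1
    have e1 : α g ((a + c) n) - (a + c) n = (α g (a n) - a n) + (α g (c n) - c n) := by
      change α g (a n + c n) - (a n + c n) = _
      rw [map_add]
      abel
    rw [e1]
    exact norm_add_le _ _

theorem isInvCen_algebraMap : ∀ r : ℂ,
    IsInvCen α ω (algebraMap ℂ (ℕ →ᵇ A) r) := by
  intro r
  constructor
  · intro b
    refine tendsto_const_nhds.congr fun n => ?_
    change (0 : ℝ) = ‖algebraMap ℂ A r * b - b * algebraMap ℂ A r‖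
    rw [Algebra.commutes, sub_self, norm_zero]
  · intro g
    refine tendsto_const_nhds.congr fun n => ?_
    change (0 : ℝ) = ‖α g (algebraMap ℂ A r) - algebraMap ℂ A r‖
    have h1 : α g (algebraMap ℂ A r) = algebraMap ℂ A r :=
      AlgHomClass.commutes ((α g : A ≃⋆ₐ[ℂ] A) : A →⋆ₐ[ℂ] A) r
    rw [h1, sub_self, norm_zero]

theorem isInvCen_star : ∀ {a : ℕ →ᵇ A}, IsInvCen α ω a →
    IsInvCen α ω (star a) := by
  rintro a ⟨ha, ha'⟩
  constructor
  · intro b
    refine (ha (star b)).congr fun n => ?_
    change ‖a n * star b - star b * a n‖ = ‖star (a n) * b - b * star (a n)‖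
    rw [← norm_star (star (a n) * b - b * star (a n)), star_sub, star_mul, star_mul, star_star,
      norm_sub_rev]
  · intro g
    refine (ha' g).congr fun n => ?_
    change ‖α g (a n) - a n‖ = ‖α g (star (a n)) - star (a n)‖
    rw [map_star, ← star_sub, norm_star]

end Vale.Agent.P095
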