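import Vale.Agent.P095.CharClosure

/-! # Characters of the fixed-point algebra of the central sequence algebra -/

open Filter Topology BoundedContinuousFunction

universe u v

namespace Vale.Agent.P095

open Vale.Agent.P101

variable {G : Type v} [Group G] {A : Type u} [CStarAlgebra A]

/-- The algebra of the bounded sequences in `A` which are, along `ω`, asymptotically central and
asymptotically `α`-invariant. The fixed-point algebra `F_ω(A)^α` of the central sequence algebra
`F_ω(A) = A_ω ∩ A'` is the quotient of this algebra by the sequences tending to `0` along `ω`. -/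
def invCentral (α : Action G A) (ω : Ultrafilter ℕ) : StarSubalgebra ℂ (ℕ →ᵇ A) where
  carrier := {a | IsInvCen α ω a}
  mul_mem' := isInvCen_mul α ω
  add_mem' := isInvCen_add α ω
  algebraMap_mem' := isInvCen_algebraMap α ω
  star_mem' := isInvCen_star α ω

/-- The fixed-point algebra `F_ω(A)^α` has no characters: no character of `invCentral α ω`
vanishes on all sequences tending to `0` along `ω`. -/
def NoInvChar (α : Action G A) (ω : Ultrafilter ℕ) : Prop :=
  ∀ χ : invCentral α ω →⋆ₐ[ℂ] ℂ, ∃ a : invCentral α ω,
    Tendsto (fun n => ‖(a : ℕ →ᵇ A) n‖) ω (𝓝 0) ∧ χ a ≠ 0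

end Vale.Agent.P095
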