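import Vale.Agent.P095.Statement

/-! # Characters of the fixed-point algebra `F_ω(A)^α` of the central sequence algebra -/

open Filter Topology

namespace Vale.Agent.P095

variable {G : Type*} [Group G] {A : Type*} [CStarAlgebra A]

/-- The sequence `a` in `A` is bounded and, along `ω`, asymptotically central and asymptotically
`α`-invariant: it represents an element of `F_ω(A)^α`. -/
def IsInvCentral (α : Action G A) (ω : Ultrafilter ℕ) (a : ℕ → A) : Prop :=
  Bornology.IsBounded (Set.range a) ∧ (∀ b, Tendsto (fun n => a n * b - b * a n) ω (𝓝 0)) ∧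
    ∀ g, Tendsto (fun n => α g (a n) - a n) ω (𝓝 0)

/-- The fixed-point algebra `F_ω(A)^α` has no characters: there is no `χ` which is a unital star
homomorphism to `ℂ` on the sequences representing its elements and kills those tending to `0`
along `ω`. -/
def NoInvCharacters (α : Action G A) (ω : Ultrafilter ℕ) : Prop :=
  ¬ ∃ χ : (ℕ → A) → ℂ, χ (fun _ => 1) = 1 ∧ ∀ a, IsInvCentral α ω a →
    (Tendsto a ω (𝓝 0) → χ a = 0) ∧ ∀ b, IsInvCentral α ω b →
      χ (fun n => star (a n) * b n) = star (χ a) * χ b ∧
      ∀ r : ℂ, χ (fun n => r • a n + b n) = r * χ a + χ b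

end Vale.Agent.P095
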