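import Vale.Agent.P095.CharThm
import Vale.Agent.P095.InvCharacter

/-! # The characterization, with characters as functions on sequences -/

open Filter Topology TopologicalSpace BoundedContinuousFunction

noncomputable section

universe u v

namespace Vale.Agent.P095

open Vale.Agent.P101

variable {G : Type v} [Group G] {A : Type u} [CStarAlgebra A] (α : Action G A)
  (ω : Ultrafilter ℕ)

theorem isInvCentral_coe {a : ℕ →ᵇ A} : IsInvCentral α ω (a : ℕ → A) ↔ a ∈ invCentral α ω := by
  constructor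
  · rintro ⟨-, h1, h2⟩
    exact ⟨fun b => by simpa using (h1 b).norm, fun g => by simpa using (h2 g).norm⟩
  · rintro ⟨h1, h2⟩
    exact ⟨isBounded_iff_forall_norm_le.2 ⟨‖a‖, by rintro _ ⟨n, rfl⟩; exact a.norm_coe_le_norm n⟩,
      fun b => tendsto_zero_iff_norm_tendsto_zero.2 (h1 b),
      fun g => tendsto_zero_iff_norm_tendsto_zero.2 (h2 g)⟩

theorem exists_invCentral {a : ℕ → A} (ha : IsInvCentral α ω a) :
    ∃ b : invCentral α ω, ((b : ℕ →ᵇ A) : ℕ → A) = a := by
  obtain ⟨C, hC'⟩ := isBounded_iff_forall_norm_le.1 ha.1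
  have hC : ∀ n, ‖a n‖ ≤ C := fun n => hC' _ ⟨n, rfl⟩
  refine ⟨⟨BoundedContinuousFunction.ofNormedAddCommGroup a continuous_of_discreteTopology C hC,
    (isInvCentral_coe α ω).1 ?_⟩, rfl⟩
  exact ha

theorem noInvChar_iff : NoInvCharacters α ω ↔ NoInvChar α ω := by
  classical
  constructor
  · intro h χ
    by_contra hcon
    push Not at hcon
    apply h
    let X : (ℕ → A) → ℂ := fun a =>
      if h : ∃ b : invCentral α ω, ((b : ℕ →ᵇ A) : ℕ → A) = a then χ h.choose else 0
    have hX : ∀ b : invCentral α ω, X ((b : ℕ →ᵇ A) : ℕ → A) = χ b := by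
      intro b
      have h1 : ∃ c : invCentral α ω, ((c : ℕ →ᵇ A) : ℕ → A) = ((b : ℕ →ᵇ A) : ℕ → A) := ⟨b, rfl⟩
      have h2 : h1.choose = b := Subtype.ext (DFunLike.coe_injective h1.choose_spec)
      simp only [X, dif_pos h1, h2]
    refine ⟨X, (hX 1).trans (map_one χ), fun a ha => ?_⟩
    obtain ⟨a, rfl⟩ := exists_invCentral α ω ha
    refine ⟨fun h0 => ?_, fun b hb => ?_⟩
    · rw [hX]
      exact hcon a (by simpa using h0.norm)
    · obtain ⟨b, rfl⟩ := exists_invCentral α ω hb
      refine ⟨?_, fun r => ?_⟩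
      · rw [hX, hX, ← map_star, ← map_mul]
        exact hX (star a * b)
      · rw [hX, hX, ← smul_eq_mul, ← map_smul, ← map_add]
        exact hX (r • a + b)
  · rintro h ⟨χ, hone, hχ⟩
    have hm : ∀ b : invCentral α ω, IsInvCentral α ω ((b : ℕ →ᵇ A) : ℕ → A) :=
      fun b => (isInvCentral_coe α ω).2 b.2
    have hz : χ (fun _ => 0) = 0 := (hχ _ (hm 0)).1 tendsto_const_nhds
    have hadd : ∀ a b : ℕ → A, IsInvCentral α ω a → IsInvCentral α ω b →
        χ (fun n => a n + b n) = χ a + χ b := by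
      intro a b ha hb
      have h1 := ((hχ a ha).2 b hb).2 1
      simpa using h1
    have hstar : ∀ a : ℕ → A, IsInvCentral α ω a → χ (fun n => star (a n)) = star (χ a) := by
      intro a ha
      have h1 := ((hχ a ha).2 _ (hm 1)).1
      have h2 : (fun n => star (a n) * ((((1 : invCentral α ω) : ℕ →ᵇ A) : ℕ → A) n))
          = fun n => star (a n) := by
        funext n
        exact mul_one _
      have h3 : χ (((1 : invCentral α ω) : ℕ →ᵇ A) : ℕ → A) = 1 := hone
      rw [h2, h3, mul_one] at h1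
      exact h1
    have hmul : ∀ a b : invCentral α ω, χ (((a * b : invCentral α ω) : ℕ →ᵇ A) : ℕ → A)
        = χ ((a : ℕ →ᵇ A) : ℕ → A) * χ ((b : ℕ →ᵇ A) : ℕ → A) := by
      intro a b
      have h1 := ((hχ _ (hm (star a))).2 _ (hm b)).1
      have h2 := hstar _ (hm a)
      have h3 : χ (((star a : invCentral α ω) : ℕ →ᵇ A) : ℕ → A)
          = star (χ ((a : ℕ →ᵇ A) : ℕ → A)) := h2
      rw [h3, star_star] at h1
      rw [← h1]
      congr 1
      funext n
      change (a : ℕ →ᵇ A) n * (b : ℕ →ᵇ A) n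
        = star (star ((a : ℕ →ᵇ A) n)) * (b : ℕ →ᵇ A) n
      rw [star_star]
    let X : invCentral α ω →⋆ₐ[ℂ] ℂ :=
      { toFun := fun b => χ ((b : ℕ →ᵇ A) : ℕ → A)
        map_one' := hone
        map_mul' := hmul
        map_zero' := hz
        map_add' := fun a b => hadd _ _ (hm a) (hm b)
        commutes' := fun r => by
          have h1 := ((hχ _ (hm 1)).2 _ (hm 0)).2 r
          refine Eq.trans (congrArg χ ?_) (h1.trans ?_)
          · funext n
            change algebraMap ℂ A r = r • (1 : A) + 0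
            rw [add_zero]
            exact Algebra.algebraMap_eq_smul_one r
          · change r * χ (fun _ => 1) + χ (fun _ => 0) = r
            rw [hone, hz, mul_one, add_zero]
        map_star' := fun a => hstar _ (hm a) }
    obtain ⟨a, ha, hne⟩ := h X
    exact hne ((hχ _ (hm a)).1 (tendsto_zero_iff_norm_tendsto_zero.2 ha))

/-- **Characterization.** -/
theorem stable_iff_noInvCharacters [Nontrivial A] [SeparableSpace A] [Countable G] {Z : Type u}
    [CStarAlgebra Z] (hZ : IsJiangSu Z) (hssa : IsSSA Z) (hω : (ω : Filter ℕ) ≤ cofinite) :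
    EquivariantlyStable α Z ↔ NoInvCharacters α ω :=
  (stable_iff_noInvChar α ω hZ hssa hω).trans (noInvChar_iff α ω).symm

/-- The characterization, permanence and the case of actions locally finite modulo inner ones. -/
theorem char_all {A Z : Type u} [CStarAlgebra A] [Nontrivial A] [SeparableSpace A]
    [CStarAlgebra Z] (hZ : IsJiangSu Z) (hssa : IsStronglySelfAbsorbing Z)
    {G : Type v} [Group G] [Countable G] (α : Action G A)
    {ω : Ultrafilter ℕ} (hω : (ω : Filter ℕ) ≤ Filter.cofinite) :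
    (EquivariantlyStable α Z ↔ NoInvCharacters α ω) ∧
    ((∀ K : Finset G, ∃ (L : Subgroup G) (H : Subgroup L), (K : Set G) ⊆ L ∧ H.FiniteIndex ∧
        EquivariantlyStable (α.comp (L.subtype.comp H.subtype)) Z) →
      EquivariantlyStable α Z) ∧
    (TensorAbsorbs A Z →
      (∀ K : Finset G, ∃ (L : Subgroup G) (H : Subgroup L), (K : Set G) ⊆ L ∧ H.FiniteIndex ∧
        ∀ g ∈ H, ∃ w ∈ unitary A, ∀ a, α g a = w * a * star w) →
      EquivariantlyStable α Z) :=
  ⟨stable_iff_noInvCharacters α ω hZ hssa.isSSA hω,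
    fun h => stable_of_finiteIndex A Z hZ hssa.isSSA G α h,
    fun hA h => stable_of_inner A Z hZ hssa.isSSA G α hA h⟩

end Vale.Agent.P095
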