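import Vale.Agent.P095.Statement

/-! # Asymptotically central and invariant sequences -/

open Filter Topology BoundedContinuousFunction

universe u v

namespace Vale.Agent.P095

open Vale.Agent.P101

variable {G : Type v} [Group G] {A : Type u} [CStarAlgebra A]

/-- The bounded sequence `a` is asymptotically central and asymptotically `α`-invariant
along `ω`. -/
def IsInvCen (α : Action G A) (ω : Ultrafilter ℕ) (a : ℕ →ᵇ A) : Prop :=
  (∀ b, Tendsto (fun n => ‖a n * b - b * a n‖) ω (𝓝 0)) ∧
    ∀ g, Tendsto (fun n => ‖α g (a n) - a n‖) ω (𝓝 0)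

end Vale.Agent.P095
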