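import Vale.Agent.P095.Perm
import Vale.Agent.P095.CharDefs

/-! # Equivariant `Z`-stability is the absence of characters on `F_ω(A)^α` -/

open Filter Topology TopologicalSpace BoundedContinuousFunction
open scoped TensorProduct

noncomputable section

universe u v

namespace Vale.Agent.P095

open Vale.Agent.P101

variable {G : Type v} [Group G] {A : Type u} [CStarAlgebra A] (α : Action G A)
  (ω : Ultrafilter ℕ)

theorem mem_invCentral {a : ℕ →ᵇ A} : a ∈ invCentral α ω ↔
    cls ω a ∈ centralSeq A ω ∧ ∀ g, seqMap (actHom α g) ω (cls ω a) = cls ω a := by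
  rw [mem_centralSeq]
  constructor
  · rintro ⟨h1, h2⟩
    constructor
    · intro b
      rw [constSeq_apply, commute_iff_eq, ← map_mul, ← map_mul, cls_eq_cls]
      refine (h1 b).congr fun n => ?_
      change ‖a n * b - b * a n‖ = ‖b * a n - a n * b‖
      exact norm_sub_rev _ _
    · intro g
      rw [seqMap_cls, cls_eq_cls]
      exact h2 g
  · rintro ⟨h1, h2⟩
    constructor
    · intro b
      have h3 := h1 b
      rw [constSeq_apply, commute_iff_eq, ← map_mul, ← map_mul, cls_eq_cls] at h3
      refine h3.congr fun n => ?_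
      change ‖b * a n - a n * b‖ = ‖a n * b - b * a n‖
      exact norm_sub_rev _ _
    · intro g
      have h3 := h2 g
      rw [seqMap_cls, cls_eq_cls] at h3
      exact h3

/-- The quotient map onto the fixed-point algebra. -/
def toFix : invCentral α ω →⋆ₐ[ℂ] fixAlg (cenAct (actHom α) (isAct_actHom α) ω) :=
  (((clsHom A ω).comp (invCentral α ω).subtype).codRestrict (centralSeq A ω)
    (fun a => ((mem_invCentral α ω).1 a.2).1)).codRestrict _
    (fun a g => Subtype.ext (((mem_invCentral α ω).1 a.2).2 g))

theorem noChar_of_noInvChar (h : NoInvChar α ω) :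
    IsEmpty (fixAlg (cenAct (actHom α) (isAct_actHom α) ω) →⋆ₐ[ℂ] ℂ) := by
  refine ⟨fun χ => ?_⟩
  obtain ⟨a, ha, hne⟩ := h (χ.comp (toFix α ω))
  apply hne
  have h1 : toFix α ω a = 0 := by
    apply Subtype.ext
    apply Subtype.ext
    change cls ω (a : ℕ →ᵇ A) = 0
    rw [← map_zero (cls ω), cls_eq_cls]
    simpa using ha
  change χ (toFix α ω a) = 0
  rw [h1, map_zero]

theorem noInvChar_of_hom {Z : Type u} [CStarAlgebra Z] (hZ : IsJiangSu Z)
    (σ : Z →⋆ₐ[ℂ] centralSeq A ω) (hσ : ∀ z g, seqMap (actHom α g) ω (σ z) = σ z) :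
    NoInvChar α ω := by
  intro χ
  by_contra hcon
  push Not at hcon
  have hlift : ∀ z, ∃ a : invCentral α ω, cls ω (a : ℕ →ᵇ A) = σ z := by
    intro z
    obtain ⟨a, ha⟩ := Ideal.Quotient.mk_surjective (σ z : SeqAlg A ω)
    change cls ω a = _ at ha
    refine ⟨⟨a, (mem_invCentral α ω).2 ⟨?_, fun g => ?_⟩⟩, ha⟩
    · rw [ha]; exact (σ z).2
    · rw [ha]; exact hσ z g
  choose l hl using hlift
  have huniq : ∀ a b : invCentral α ω, cls ω (a : ℕ →ᵇ A) = cls ω (b : ℕ →ᵇ A) → χ a = χ b := by
    intro a b hab
    rw [← sub_eq_zero, ← map_sub]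
    exact hcon (a - b) (cls_eq_cls.1 hab)
  let τ : Z →⋆ₐ[ℂ] ℂ :=
    { toFun := fun z => χ (l z)
      map_one' := by
        rw [← map_one χ]
        exact huniq _ _ (by rw [hl, map_one]; rfl)
      map_mul' := fun x y => by
        rw [← map_mul χ]
        exact huniq _ _ (by
          rw [hl, map_mul]
          change _ = cls ω (((l x : invCentral α ω) : ℕ →ᵇ A) * ((l y : invCentral α ω) : ℕ →ᵇ A))
          rw [map_mul, hl, hl]
          rfl)
      map_zero' := by
        rw [← map_zero χ]
        exact huniq _ _ (by rw [hl, map_zero]; rfl)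
      map_add' := fun x y => by
        rw [← map_add χ]
        exact huniq _ _ (by
          rw [hl, map_add]
          change _ = cls ω (((l x : invCentral α ω) : ℕ →ᵇ A) + ((l y : invCentral α ω) : ℕ →ᵇ A))
          rw [map_add, hl, hl]
          rfl)
      commutes' := fun r => by
        have h1 := AlgHomClass.commutes χ r
        rw [← h1]
        exact huniq _ _ (by rw [hl, AlgHomClass.commutes]; rfl)
      map_star' := fun x => by
        rw [← map_star χ]
        exact huniq _ _ (by
          rw [hl, map_star]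
          change _ = cls ω (star ((l x : invCentral α ω) : ℕ →ᵇ A))
          rw [← star_cls, hl]
          rfl) }
  have hs := hZ.simple
  have hinj : Function.Injective τ := RingHom.injective (τ : Z →+* ℂ)
  exact hZ.infinite_dimensional (FiniteDimensional.of_injective τ.toAlgHom.toLinearMap hinj)

/-- **Characterization.** -/
theorem stable_iff_noInvChar [Nontrivial A] [SeparableSpace A] [Countable G] {Z : Type u}
    [CStarAlgebra Z] (hZ : IsJiangSu Z) (hssa : IsSSA Z) (hω : (ω : Filter ℕ) ≤ cofinite) :
    EquivariantlyStable α Z ↔ NoInvChar α ω := by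
  have hsep := hZ.separable
  constructor
  · intro h
    obtain ⟨σ, hσ⟩ := exists_fixed_of_stable hssa α h ω hω
    exact noInvChar_of_hom α ω hZ σ hσ
  · intro h
    obtain ⟨θ, hθ⟩ := exists_fixed_hom_of_noChar hZ ω hω (actHom α) (isAct_actHom α)
      (noChar_of_noInvChar α ω h)
    exact stable_of_fixed_homs A Z hZ (hZ.tensorAbsorbs_of_hom θ) G α ω
      fun K => ⟨θ, fun z g _ => hθ z g⟩

end Vale.Agent.P095
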