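import Vale.Agent.P095.Basic
import Vale.Agent.P101.JSIntertwine

/-! # [E7a] one-sided approximate intertwining with a cocycle (Baire category) -/

open Filter Topology TopologicalSpace

noncomputable section

namespace Vale.Agent.P095

open Vale.Agent.P101

/-- As `exists_equiv_of_intertwining` in P101/JSIntertwine.lean, equivariantly. Use the closure of
the set of all `((U φ(a_n) U*)_n, (U β_g(U)*)_g)` in `(ℕ → B) × (G → B)`. -/
theorem exists_cocycle_intertwining {A B : Type*} [CStarAlgebra A] [CStarAlgebra B]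
    [SeparableSpace A] [SeparableSpace B] {G : Type*} [Group G] [Countable G]
    (φ : A →⋆ₐ[ℂ] B) (hφ : Function.Injective φ)
    (α : G → A →⋆ₐ[ℂ] A) (β : G → B →⋆ₐ[ℂ] B) (hβ : IsAct β)
    (hφα : ∀ g a, β g (φ a) = φ (α g a))
    (h : ∀ (F : Finset A) (K : Finset G) (b : B) (ε : ℝ), 0 < ε → ∃ v ∈ unitary B,
      (∀ a ∈ F, ‖v * φ a - φ a * v‖ < ε) ∧ (∀ g ∈ K, ‖β g v - v‖ < ε) ∧
      (∃ a, ‖star v * b * v - φ a‖ < ε)) :
    ∃ (Φ : A ≃⋆ₐ[ℂ] B) (u : G → B), (∀ g, u g ∈ unitary B) ∧
      (∀ g h, u (g * h) = u g * β g (u h)) ∧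
      ∀ g a, Φ (α g a) = u g * β g (Φ a) * star (u g) := by
  classical
  obtain ⟨en, hen⟩ := exists_surjective_nat G
  have hβu : ∀ s (V : B), V ∈ unitary B → β s V ∈ unitary B := by
    intro s V hV
    rw [Unitary.mem_iff] at hV ⊢
    rw [← map_star, ← map_mul, ← map_mul, hV.1, hV.2, map_one]
    exact ⟨rfl, rfl⟩
  have hiso : ∀ a, ‖φ a‖ = ‖a‖ := fun a => NonUnitalStarAlgHom.norm_map φ hφ a
  let a : ℕ → A := denseSeq A
  let b : ℕ → B := denseSeq B
  let c : unitary B → A → B := fun U x => (U : B) * φ x * star (U : B)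
  have hc : ∀ U x, ‖c U x‖ = ‖x‖ := fun U x => by
    rw [← hiso x]; exact norm_unitary_conj _ U.2 _
  have hcsub : ∀ U x y, c U x - c U y = c U (x - y) := fun U x y => by
    simp only [c, map_sub, mul_sub, sub_mul]
  let coc : unitary B → G → B := fun U s => (U : B) * star (β s (U : B))
  let g : unitary B → (ℕ → B) × (G → B) := fun U => (fun n => c U (a n), coc U)
  let X : Set ((ℕ → B) × (G → B)) := closure (Set.range g)
  have hXcl : IsClosed X := isClosed_closure
  let O : ℕ → ℕ → Set ((ℕ → B) × (G → B)) := fun m k =>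
    {x | ∃ n, ‖b m - x.1 n‖ < 1 / (k + 1 : ℝ)}
  have hOopen : ∀ m k, IsOpen (O m k) := by
    intro m k
    have : O m k = ⋃ n, {x | ‖b m - x.1 n‖ < 1 / (k + 1 : ℝ)} := by
      ext x; simp [O]
    rw [this]
    refine isOpen_iUnion fun n => isOpen_lt ?_ continuous_const
    exact (continuous_const.sub ((continuous_apply n).comp continuous_fst)).norm
  have hdense : ∀ m k, X ⊆ closure (X ∩ O m k) := by
    intro m k
    refine closure_minimal ?_ isClosed_closure
    rintro _ ⟨U, rfl⟩
    have hv : ∀ N : ℕ, ∃ v ∈ unitary B,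
      (∀ x ∈ (Finset.range N).image a, ‖v * φ x - φ x * v‖ < 1 / (N + 1 : ℝ)) ∧
        (∀ s ∈ (Finset.range N).image en, ‖β s v - v‖ < 1 / (N + 1 : ℝ)) ∧
        (∃ x, ‖star v * (star (U : B) * b m * U) * v - φ x‖ < 1 / (N + 1 : ℝ)) := fun N =>
      h _ _ _ _ (by positivity)
    choose v hvu hv1 hv3 hv2 using hv
    have hlim : Tendsto (fun N : ℕ => 1 / (N + 1 : ℝ)) atTop (𝓝 0) :=
      tendsto_one_div_add_atTop_nhds_zero_nat
    let W : ℕ → unitary B := fun N => U * ⟨v N, hvu N⟩
    have hWc : Tendsto (fun N => coc (W N)) atTop (𝓝 (coc U)) := by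
      rw [tendsto_pi_nhds]
      intro s
      obtain ⟨n, rfl⟩ := hen s
      rw [tendsto_iff_norm_sub_tendsto_zero]
      refine squeeze_zero' (Eventually.of_forall fun _ => norm_nonneg _) ?_ hlim
      filter_upwards [eventually_gt_atTop n] with N hN
      have h1 := hv3 N (en n) (Finset.mem_image_of_mem _ (Finset.mem_range.2 hN))
      have hb' := hβu (en n) _ (hvu N)
      have h2 : coc (W N) (en n) - coc U (en n) =
          (U : B) * ((v N - β (en n) (v N)) * star (β (en n) (v N)) * star (β (en n) (U : B))) := by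
        have h3 : β (en n) (v N) * star (β (en n) (v N)) = 1 := Unitary.mul_star_self_of_mem hb'
        simp only [coc, W, Submonoid.coe_mul, map_mul, star_mul]
        rw [sub_mul, h3, sub_mul, one_mul]
        noncomm_ring
      rw [h2, CStarRing.norm_mem_unitary_mul _ U.2,
        CStarRing.norm_mul_mem_unitary _ (Unitary.star_mem (hβu _ _ U.2)),
        CStarRing.norm_mul_mem_unitary _ (Unitary.star_mem hb'), norm_sub_rev]
      exact h1.le
    have hWa : Tendsto (fun N => (g (W N)).1) atTop (𝓝 (g U).1) := by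
      rw [tendsto_pi_nhds]
      intro n
      rw [tendsto_iff_norm_sub_tendsto_zero]
      refine squeeze_zero' (Eventually.of_forall fun _ => norm_nonneg _) ?_ hlim
      filter_upwards [eventually_gt_atTop n] with N hN
      have h1 := hv1 N (a n) (Finset.mem_image_of_mem _ (Finset.mem_range.2 hN))
      have h2 : (g (W N)).1 n - (g U).1 n =
          (U : B) * ((v N * φ (a n) - φ (a n) * v N) * star (v N)) * star (U : B) := by
        have h3 : v N * star (v N) = 1 := Unitary.mul_star_self_of_mem (hvu N)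
        simp only [g, c, W, Submonoid.coe_mul, star_mul]
        rw [sub_mul, mul_assoc (φ (a n)) (v N), h3, mul_one]
        noncomm_ring
      rw [h2, norm_unitary_conj _ U.2, CStarRing.norm_mul_mem_unitary _ (Unitary.star_mem (hvu N))]
      exact h1.le
    have hW : Tendsto (fun N => g (W N)) atTop (𝓝 (g U)) := by
      have := hWa.prodMk_nhds hWc
      exact this
    refine mem_closure_of_tendsto hW ?_
    have hlim2 := hlim.const_mul 2
    rw [mul_zero] at hlim2
    filter_upwards [hlim2.eventually (gt_mem_nhds (show (0:ℝ) < 1 / (k + 1 : ℝ) by positivity))]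
      with N hN
    refine ⟨subset_closure ⟨_, rfl⟩, ?_⟩
    obtain ⟨x, hx⟩ := hv2 N
    obtain ⟨n, hn⟩ := (denseRange_denseSeq A).exists_dist_lt x
      (show (0:ℝ) < 1 / (N + 1 : ℝ) by positivity)
    refine ⟨n, ?_⟩
    have h2 : star (W N : B) * (b m - (g (W N)).1 n) * star (star (W N : B)) =
        (star (v N) * (star (U : B) * b m * U) * v N - φ x) + φ (x - a n) := by
      have h3 : star (v N) * v N = 1 := Unitary.star_mul_self_of_mem (hvu N)
      have h4 : star (U : B) * U = 1 := Unitary.coe_star_mul_self U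
      simp only [g, c, W, Submonoid.coe_mul, star_mul, star_star, map_sub]
      have h5 : star (v N) * star (U : B) * (U * v N * φ (a n) * (star (v N) * star (U : B))) *
          (U * v N) = φ (a n) := by
        calc _ = star (v N) * ((star (U : B) * U) * (v N * φ (a n) * star (v N)) *
              (star (U : B) * U)) * v N := by noncomm_ring
          _ = (star (v N) * v N) * φ (a n) * (star (v N) * v N) := by
              rw [h4]; noncomm_ring
          _ = _ := by rw [h3]; noncomm_ring
      rw [mul_sub, sub_mul, h5]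
      noncomm_ring
    rw [← norm_unitary_conj _ (Unitary.star_mem (W N).2) (b m - (g (W N)).1 n), h2]
    refine (norm_add_le _ _).trans_lt ?_
    rw [hiso, ← dist_eq_norm x (a n)]
    have h6 : dist x (a n) < 1 / (N + 1 : ℝ) := hn
    linarith
  -- Baire
  have : IsCompletelyMetrizableSpace X :=
    hXcl.isClosedEmbedding_subtypeVal.IsCompletelyMetrizableSpace
  have : Nonempty X := ⟨⟨g 1, subset_closure ⟨1, rfl⟩⟩⟩
  have hB : Dense (⋂ p : ℕ × ℕ, (Subtype.val ⁻¹' (O p.1 p.2) : Set X)) := by
    refine dense_iInter_of_isOpen (fun p => (hOopen _ _).preimage continuous_subtype_val)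
      fun p x => ?_
    have := hdense p.1 p.2 x.2
    rw [closure_subtype]
    rwa [Subtype.image_preimage_coe]
  obtain ⟨x, hx⟩ := hB.nonempty
  rw [Set.mem_iInter] at hx
  let L : Filter (unitary B) := comap g (𝓝 x.1)
  have hL : L.NeBot := by
    rw [comap_neBot_iff]
    intro t ht
    obtain ⟨_, h1, U, rfl⟩ := mem_closure_iff_nhds.1 x.2 t ht
    exact ⟨U, h1⟩
  have hgL : ∀ n, Tendsto (fun U => c U (a n)) L (𝓝 (x.1.1 n)) := by
    intro n
    have h1 : Tendsto (fun U => (g U).1) L (𝓝 x.1.1) :=
      (continuous_fst.tendsto _).comp (tendsto_comap : Tendsto g L (𝓝 x.1))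
    exact (tendsto_pi_nhds.1 h1) n
  have hcL : ∀ s, Tendsto (fun U => coc U s) L (𝓝 (x.1.2 s)) := by
    intro s
    have h1 : Tendsto (fun U => (g U).2) L (𝓝 x.1.2) :=
      (continuous_snd.tendsto _).comp (tendsto_comap : Tendsto g L (𝓝 x.1))
    exact (tendsto_pi_nhds.1 h1) s
  have hlim : ∀ z : A, ∃ y, Tendsto (fun U => c U z) L (𝓝 y) := by
    intro z
    rw [← cauchy_map_iff_exists_tendsto, Metric.cauchy_iff]
    refine ⟨inferInstance, fun ε hε => ?_⟩
    obtain ⟨n, hn⟩ := (denseRange_denseSeq A).exists_dist_lt z (show (0:ℝ) < ε / 4 by positivity)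
    have h1 : ∀ᶠ U in L, dist (c U (a n)) (x.1.1 n) < ε / 4 :=
      (Metric.tendsto_nhds.1 (hgL n)) _ (by positivity)
    refine ⟨(fun U => c U z) '' {U | dist (c U (a n)) (x.1.1 n) < ε / 4}, image_mem_map h1, ?_⟩
    rintro _ ⟨U, hU, rfl⟩ _ ⟨V, hV, rfl⟩
    rw [Set.mem_ofPred_eq] at hU hV
    have h2 : ∀ U, dist (c U z) (c U (a n)) < ε / 4 := by
      intro U
      rw [dist_eq_norm, hcsub, hc, ← dist_eq_norm]
      exact hn
    have := h2 U
    have h3 := h2 V
    calc dist (c U z) (c V z) ≤ dist (c U z) (c U (a n)) + dist (c U (a n)) (x.1.1 n) +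
          dist (x.1.1 n) (c V (a n)) + dist (c V (a n)) (c V z) := by
            refine (dist_triangle4 _ (c U (a n)) (c V (a n)) _).trans ?_
            have := dist_triangle (c U (a n)) (x.1.1 n) (c V (a n))
            linarith
      _ < ε := by rw [dist_comm (x.1.1 n), dist_comm (c V (a n)) (c V z)]; linarith
  choose l hl using hlim
  have huniq : ∀ {f : unitary B → B} {y y'}, Tendsto f L (𝓝 y) → Tendsto f L (𝓝 y') → y = y' :=
    fun h1 h2 => tendsto_nhds_unique h1 h2
  have hmulc : ∀ U z w, c U (z * w) = c U z * c U w := by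
    intro U z w
    simp only [c, map_mul]
    have : star (U : B) * U = 1 := Unitary.coe_star_mul_self U
    calc (U : B) * (φ z * φ w) * star (U : B) = U * φ z * 1 * φ w * star (U : B) := by noncomm_ring
      _ = _ := by rw [← this]; noncomm_ring
  let lam : A →⋆ₐ[ℂ] B :=
    { toFun := l
      map_one' := huniq (hl 1) (tendsto_const_nhds.congr fun U => by
        simp only [c, map_one, mul_one]
        exact (Unitary.coe_mul_star_self U).symm)
      map_mul' := fun z w => huniq (hl (z * w)) (((hl z).mul (hl w)).congr fun U =>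
        (hmulc U z w).symm)
      map_zero' := huniq (hl 0) (tendsto_const_nhds.congr fun U => by simp [c])
      map_add' := fun z w => huniq (hl (z + w)) (((hl z).add (hl w)).congr fun U => by
        simp only [c, map_add, mul_add, add_mul])
      commutes' := fun r => huniq (hl _) (tendsto_const_nhds.congr fun U => by
        simp only [c, AlgHomClass.commutes]
        rw [← Algebra.commutes, mul_assoc, Unitary.mul_star_self_of_mem U.2, mul_one])
      map_star' := fun z => huniq (hl (star z)) (((hl z).star).congr fun U => by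
        simp only [c, map_star, star_mul, star_star, mul_assoc]) }
  have hlam : ∀ z, ‖lam z‖ = ‖z‖ := by
    intro z
    refine tendsto_nhds_unique ((hl z).norm) (tendsto_const_nhds.congr fun U => (hc U z).symm)
  have hlamiso : Isometry lam := AddMonoidHomClass.isometry_of_norm lam hlam
  have hlamx : ∀ n, lam (a n) = x.1.1 n := fun n => huniq (hl (a n)) (hgL n)
  have hclosed : IsClosed (Set.range lam) := hlamiso.isClosedEmbedding.isClosed_range
  have hb : ∀ m, b m ∈ Set.range lam := by
    intro m
    rw [← hclosed.closure_eq, Metric.mem_closure_iff]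
    intro ε hε
    obtain ⟨k, hk⟩ := exists_nat_one_div_lt hε
    obtain ⟨n, hn⟩ := hx (m, k)
    refine ⟨lam (a n), ⟨_, rfl⟩, ?_⟩
    rw [hlamx, dist_eq_norm]
    exact lt_trans hn hk
  have hsurj : Function.Surjective lam := by
    intro y
    have h1 : closure (Set.range b) ⊆ Set.range lam :=
      closure_minimal (by rintro _ ⟨m, rfl⟩; exact hb m) hclosed
    exact h1 (denseRange_denseSeq B y)
  have hcocu : ∀ U s, coc U s ∈ unitary B := fun U s =>
    mul_mem U.2 (Unitary.star_mem (hβu s _ U.2))
  refine ⟨StarAlgEquiv.ofBijective lam ⟨hlamiso.injective, hsurj⟩, x.1.2, ?_, ?_, ?_⟩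
  · intro s
    rw [Unitary.mem_iff]
    refine ⟨huniq ((hcL s).star.mul (hcL s)) (tendsto_const_nhds.congr fun U => ?_),
      huniq ((hcL s).mul (hcL s).star) (tendsto_const_nhds.congr fun U => ?_)⟩
    · exact (Unitary.star_mul_self_of_mem (hcocu U s)).symm
    · exact (Unitary.mul_star_self_of_mem (hcocu U s)).symm
  · intro s t
    refine huniq (hcL (s * t)) (((hcL s).mul (((continuous_hom (β s)).tendsto _).comp
      (hcL t))).congr fun U => ?_)
    have h1 : star (β s (U : B)) * β s (U : B) = 1 :=
      Unitary.star_mul_self_of_mem (hβu s _ U.2)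
    simp only [coc, Function.comp_apply, map_mul, map_star, hβ.mul]
    rw [mul_assoc, ← mul_assoc (star (β s (U : B))), h1, one_mul]
  · intro s z
    show lam (α s z) = _
    refine huniq (hl (α s z)) ((((hcL s).mul (((continuous_hom (β s)).tendsto _).comp
      (hl z))).mul (hcL s).star).congr fun U => ?_)
    have h1 : star (β s (U : B)) * β s (U : B) = 1 :=
      Unitary.star_mul_self_of_mem (hβu s _ U.2)
    simp only [coc, c, Function.comp_apply, map_mul, map_star, star_mul, star_star, hφα]
    calc (U : B) * star (β s (U : B)) * (β s (U : B) * φ (α s z) * star (β s (U : B))) *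
          (β s (U : B) * star (U : B))
        = U * (star (β s (U : B)) * β s (U : B)) * φ (α s z) *
          (star (β s (U : B)) * β s (U : B)) * star (U : B) := by noncomm_ring
      _ = _ := by rw [h1]; noncomm_ring

end Vale.Agent.P095
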