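import Vale.Agent.P095.Basic

/-! # [E3] commuting copies in the fixed-point algebra -/

noncomputable section

namespace Vale.Agent.P095

open Vale.Agent.P101

theorem hasCopies_fix {G : Type*} [Group G] {E : Type*} [CStarAlgebra E]
    (σ : G → E →⋆ₐ[ℂ] E) (h : HasEqCopies σ) : HasCopies (fixAlg σ) := by
  intro S hS
  set S' : Set E := (fixAlg σ).subtype '' S with hS'
  obtain ⟨ρ, h1, -, h3⟩ := h S' (hS.image _) (by
    rintro g _ ⟨x, hx, rfl⟩
    exact ⟨x, hx, (x.2 g).symm⟩)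
  have hmem : ∀ x : StarAlgebra.adjoin ℂ S,
      (((fixAlg σ).subtype.comp (StarAlgebra.adjoin ℂ S).subtype) x) ∈ StarAlgebra.adjoin ℂ S' := by
    intro x
    have h4 : (StarAlgebra.adjoin ℂ S).map (fixAlg σ).subtype = StarAlgebra.adjoin ℂ S' :=
      StarAlgHom.map_adjoin _ _
    rw [← h4]
    exact ⟨x.1, x.2, rfl⟩
  let ι : StarAlgebra.adjoin ℂ S →⋆ₐ[ℂ] StarAlgebra.adjoin ℂ S' :=
    ((fixAlg σ).subtype.comp (StarAlgebra.adjoin ℂ S).subtype).codRestrict _ hmem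
  have hι : ∀ x, ((ι x : StarAlgebra.adjoin ℂ S') : E) = ((x : fixAlg σ) : E) := fun x => rfl
  refine ⟨fun j => ((ρ j).comp ι).codRestrict (fixAlg σ) (fun x g => ?_), ?_⟩
  · refine (h3 g j (ι x) (ι x) ?_).symm
    rw [hι]
    exact (x.1.2 g).symm
  · intro i j hij x y
    apply Subtype.ext
    exact h1 i j hij (ι x) (ι y)

end Vale.Agent.P095
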