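import Vale.Agent.P095.SeqAct
import Vale.Agent.P101.LimitHom

/-! # [E5] a homomorphism from an inductive limit to the fixed points of `F_ω(A)` -/

open Filter Topology BoundedContinuousFunction TopologicalSpace

noncomputable section

namespace Vale.Agent.P095

open Vale.Agent.P101

/-- As `exists_hom_of_limit` in P101/LimitHom.lean, with fixed points of countably many
maps. -/
theorem exists_fixed_hom_of_limit {ω : Ultrafilter ℕ} {A : Type*} [CStarAlgebra A]
    {Z : Type*} [CStarAlgebra Z] {D : ℕ → StarSubalgebra ℂ Z}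
    [SeparableSpace A] (hω : (ω : Filter ℕ) ≤ cofinite)
    [SeparableSpace Z] (hD : Monotone D) (hdense : Dense (⋃ n, (D n : Set Z)))
    {G : Type*} [Nonempty G] [Countable G] (α : G → A →⋆ₐ[ℂ] A)
    (ψ : ∀ n, D n →⋆ₐ[ℂ] centralSeq A ω) (hψ : ∀ n (x : D n), ‖ψ n x‖ ≤ ‖(x : Z)‖)
    (hfix : ∀ n x g, seqMap (α g) ω (ψ n x) = ψ n x) :
    ∃ θ : Z →⋆ₐ[ℂ] centralSeq A ω, ∀ z g, seqMap (α g) ω (θ z) = θ z := by
  classical
  rw [Nat.cofinite_eq_atTop] at hω
  -- countable dense subset of the union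
  obtain ⟨Y, hYD, hY, hDY⟩ := (IsSeparable.of_separableSpace
    (⋃ n, (D n : Set Z))).exists_countable_dense_subset
  have hlift : ∀ y : Z, ∃ f : (ℕ × ℕ) →ᵇ A, y ∈ Y → ∀ᶠ n in atTop, Good ψ n (y, f) := by
    intro y
    by_cases hy : y ∈ Y
    · obtain ⟨f, hf⟩ := exists_good_lift hD ψ hψ y (hYD hy)
      exact ⟨f, fun _ => hf⟩
    · exact ⟨0, fun h => absurd h hy⟩
  choose F hF using hlift
  let R := Z × ((ℕ × ℕ) →ᵇ A)
  let S : Set R := (fun y => (y, F y)) '' Y
  have hS : S.Countable := hY.image _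
  let D' : StarSubalgebra ℂ R := StarAlgebra.adjoin ℂ S
  have hgood : ∀ d ∈ D', ∀ᶠ n in atTop, Good ψ n d := good_adjoin ψ S (by
    rintro _ ⟨y, hy, rfl⟩
    exact hF y hy)
  obtain ⟨X, hXD, hX, hDX⟩ := (isSeparable_adjoin hS).exists_countable_dense_subset
  have hXne : X.Nonempty := by
    have h1 : (1 : R) ∈ closure X := hDX (one_mem D')
    exact closure_nonempty_iff.1 ⟨_, h1⟩
  obtain ⟨x, rfl⟩ := hX.exists_eq_range hXne
  let a := denseSeq A
  obtain ⟨en, hen⟩ := exists_surjective_nat G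
  obtain ⟨m, hm⟩ := exists_diag (ω := ω) (fun i n k =>
    ‖(x i.unpair.1).2 (n, k)‖ ≤ ‖cls ω (rowHom A n (x i.unpair.1).2)‖ + 1 / (n + 1 : ℝ) ∧
    ‖(x i.unpair.1).2 (n, k) * a i.unpair.2 - a i.unpair.2 * (x i.unpair.1).2 (n, k)‖ ≤
      ‖cls ω (rowHom A n (x i.unpair.1).2 * BoundedContinuousFunction.const ℕ (a i.unpair.2)
        - BoundedContinuousFunction.const ℕ (a i.unpair.2) * rowHom A n (x i.unpair.1).2)‖
        + 1 / (n + 1 : ℝ) ∧
    ∀ r ∈ Finset.range (n + 1), ‖α (en r) ((x i.unpair.1).2 (n, k)) - (x i.unpair.1).2 (n, k)‖ ≤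
      ‖cls ω (mapSeq (α (en r)) (rowHom A n (x i.unpair.1).2) - rowHom A n (x i.unpair.1).2)‖
        + 1 / (n + 1 : ℝ)) (by
      intro i n
      have hpos : (0:ℝ) < 1 / (n + 1 : ℝ) := by positivity
      refine Filter.Eventually.and ?_ (Filter.Eventually.and ?_ ?_)
      · filter_upwards [(tendsto_norm_cls (ω := ω) (rowHom A n (x i.unpair.1).2)).eventually
          (gt_mem_nhds (lt_add_of_pos_right _ hpos))] with k hk using hk.le
      · filter_upwards [(tendsto_norm_cls (ω := ω) (rowHom A n (x i.unpair.1).2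
          * BoundedContinuousFunction.const ℕ (a i.unpair.2)
          - BoundedContinuousFunction.const ℕ (a i.unpair.2)
            * rowHom A n (x i.unpair.1).2)).eventually
          (gt_mem_nhds (lt_add_of_pos_right _ hpos))] with k hk using hk.le
      · rw [Filter.eventually_all_finset]
        intro r _
        filter_upwards [(tendsto_norm_cls (ω := ω) (mapSeq (α (en r)) (rowHom A n (x i.unpair.1).2)
          - rowHom A n (x i.unpair.1).2)).eventually
          (gt_mem_nhds (lt_add_of_pos_right _ hpos))] with k hk using hk.le)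
  have hlim : Tendsto (fun n : ℕ => 1 / (n + 1 : ℝ)) ω (𝓝 0) :=
    tendsto_one_div_add_atTop_nhds_zero_nat.mono_left hω
  let dg : ((ℕ × ℕ) →ᵇ A) →⋆ₐ[ℂ] (ℕ →ᵇ A) := reindexG (fun n => (n, m n)) A
  let π : R →⋆ₐ[ℂ] Z := StarAlgHom.fst ℂ Z ((ℕ × ℕ) →ᵇ A)
  let Φ : R →⋆ₐ[ℂ] SeqAlg A ω := ((clsHom A ω).comp dg).comp
    (StarAlgHom.snd ℂ Z ((ℕ × ℕ) →ᵇ A))
  have hΦc : Continuous Φ := by
    refine AddMonoidHomClass.continuous_of_bound Φ 1 fun d => ?_
    rw [one_mul]
    exact NonUnitalStarAlgHom.norm_apply_le Φ d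
  have hπc : Continuous π := continuous_fst
  -- norm estimate on the dense set
  have hx1 : ∀ i, ‖Φ (x i)‖ ≤ ‖π (x i)‖ := by
    intro i
    have hev : ∀ᶠ n in (ω : Filter ℕ), ‖dg (x i).2 n‖ ≤ ‖π (x i)‖ + 1 / (n + 1 : ℝ) := by
      filter_upwards [hω (eventually_ge_atTop (Nat.pair i 0)),
        hω (hgood (x i) (hXD ⟨i, rfl⟩))] with n hn ⟨h1, h2⟩
      have h3 := (hm (Nat.pair i 0) n hn).1
      rw [Nat.unpair_pair] at h3
      refine h3.trans ?_
      have h4 : ‖cls ω (rowHom A n (x i).2)‖ ≤ ‖π (x i)‖ := by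
        rw [clsHom_apply] at h2
        rw [← h2]
        exact hψ n ⟨(x i).1, h1⟩
      gcongr
    refine le_of_tendsto_of_tendsto (tendsto_norm_cls (ω := ω) (dg (x i).2)) ?_ hev
    simpa using hlim.const_add ‖π (x i)‖
  have hΦn : ∀ d ∈ D', ‖Φ d‖ ≤ ‖π d‖ := by
    intro d hd
    have hcl : IsClosed {d | ‖Φ d‖ ≤ ‖π d‖} :=
      isClosed_le (continuous_norm.comp hΦc) (continuous_norm.comp hπc)
    refine closure_minimal ?_ hcl (hDX hd)
    rintro _ ⟨i, rfl⟩
    exact hx1 i
  -- centrality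
  have hx2 : ∀ i, Φ (x i) ∈ centralSeq A ω := by
    intro i
    rw [mem_centralSeq]
    have hcc : Continuous (constSeq A ω) := by
      refine AddMonoidHomClass.continuous_of_bound (constSeq A ω) 1 fun a => ?_
      rw [one_mul]
      exact (norm_cls_le _).trans (BoundedContinuousFunction.norm_const_le a)
    intro b
    have hcl : IsClosed {b : A | constSeq A ω b * Φ (x i) = Φ (x i) * constSeq A ω b} :=
      isClosed_eq (hcc.mul continuous_const) (continuous_const.mul hcc)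
    have hsub : Set.range a ⊆ {b : A | constSeq A ω b * Φ (x i) = Φ (x i) * constSeq A ω b} := by
      rintro _ ⟨j, rfl⟩
      refine Eq.symm (a := Φ (x i) * constSeq A ω (a j)) ?_
      change cls ω (dg (x i).2) * cls ω (BoundedContinuousFunction.const ℕ (a j))
        = cls ω (BoundedContinuousFunction.const ℕ (a j)) * cls ω (dg (x i).2)
      rw [← map_mul, ← map_mul, cls_eq_cls]
      refine squeeze_zero' (Filter.Eventually.of_forall fun n => norm_nonneg _) ?_ hlim
      filter_upwards [hω (eventually_ge_atTop (Nat.pair i j)),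
        hω (hgood (x i) (hXD ⟨i, rfl⟩))] with n hn ⟨h1, h2⟩
      have h3 := (hm (Nat.pair i j) n hn).2.1
      rw [Nat.unpair_pair] at h3
      have h4 : cls ω (rowHom A n (x i).2 * BoundedContinuousFunction.const ℕ (a j)
        - BoundedContinuousFunction.const ℕ (a j) * rowHom A n (x i).2) = 0 := by
        rw [clsHom_apply] at h2
        have h5 := mem_centralSeq.1 (ψ n ⟨(x i).1, h1⟩).2 (a j)
        rw [h2, constSeq_apply] at h5
        rw [map_sub, map_mul, map_mul, h5.eq, sub_self]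
      rw [h4, norm_zero, zero_add] at h3
      exact h3
    have := closure_minimal hsub hcl
    rw [(denseRange_denseSeq A).closure_range] at this
    exact this (Set.mem_univ b)
  have hΦF : ∀ d ∈ D', Φ d ∈ centralSeq A ω := by
    intro d hd
    have hcl : IsClosed {d | Φ d ∈ centralSeq A ω} := centralSeq.isClosed.preimage hΦc
    refine closure_minimal ?_ hcl (hDX hd)
    rintro _ ⟨i, rfl⟩
    exact hx2 i
  have hC : ((⊤ : StarSubalgebra ℂ Z) : Set Z) ⊆ closure (π '' D') := by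
    intro z _
    have h1 : z ∈ closure (⋃ n, (D n : Set Z)) := hdense z
    have h2 : closure (⋃ n, (D n : Set Z)) ⊆ closure Y := closure_minimal hDY isClosed_closure
    refine closure_mono ?_ (h2 h1)
    intro y hy
    exact ⟨(y, F y), StarAlgebra.subset_adjoin ℂ S ⟨y, hy, rfl⟩, rfl⟩
  -- fixed points
  have hsc : ∀ g, Continuous (seqMap (α g) ω) := fun g => continuous_hom _
  have hx3 : ∀ i g, seqMap (α g) ω (Φ (x i)) = Φ (x i) := by
    intro i g
    obtain ⟨r, rfl⟩ := hen g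
    change seqMap (α (en r)) ω (cls ω (dg (x i).2)) = cls ω (dg (x i).2)
    rw [seqMap_cls, cls_eq_cls]
    refine squeeze_zero' (Filter.Eventually.of_forall fun n => norm_nonneg _) ?_ hlim
    filter_upwards [hω (eventually_ge_atTop (Nat.pair i 0)), hω (eventually_ge_atTop r),
      hω (hgood (x i) (hXD ⟨i, rfl⟩))] with n hn hnr ⟨h1, h2⟩
    have h3 := (hm (Nat.pair i 0) n hn).2.2 r (Finset.mem_range.2 (Nat.lt_succ_of_le hnr))
    rw [Nat.unpair_pair] at h3
    have h4 : cls ω (mapSeq (α (en r)) (rowHom A n (x i).2) - rowHom A n (x i).2) = 0 := by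
      rw [clsHom_apply] at h2
      have h5 := hfix n ⟨(x i).1, h1⟩ (en r)
      rw [h2, seqMap_cls] at h5
      rw [map_sub, h5, sub_self]
    rw [h4, norm_zero, zero_add] at h3
    exact h3
  have hΦfix : ∀ d ∈ D', ∀ g, seqMap (α g) ω (Φ d) = Φ d := by
    intro d hd g
    have hcl : IsClosed {d | seqMap (α g) ω (Φ d) = Φ d} :=
      isClosed_eq ((hsc g).comp hΦc) hΦc
    refine closure_minimal ?_ hcl (hDX hd)
    rintro _ ⟨i, rfl⟩
    exact hx3 i g
  obtain ⟨θ, -, -, hθ⟩ := exists_hom_of_norm_le π Φ D' hΦn ⊤ hC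
  have hθF : ∀ c, θ c ∈ centralSeq A ω := by
    intro c
    refine closure_minimal ?_ (centralSeq.isClosed (A := A) (ω := ω)) (hθ c)
    rintro _ ⟨d, hd, rfl⟩
    exact hΦF d hd
  have hθfix : ∀ c g, seqMap (α g) ω (θ c) = θ c := by
    intro c g
    have hcl : IsClosed {y : SeqAlg A ω | seqMap (α g) ω y = y} :=
      isClosed_eq (hsc g) continuous_id
    refine closure_minimal ?_ hcl (hθ c)
    rintro _ ⟨d, hd, rfl⟩
    exact hΦfix d hd g
  let j : Z →⋆ₐ[ℂ] (⊤ : StarSubalgebra ℂ Z) := (StarAlgHom.id ℂ Z).codRestrict ⊤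
    (fun _ => StarSubalgebra.mem_top)
  exact ⟨(θ.comp j).codRestrict (centralSeq A ω) (fun z => hθF _), fun z g => hθfix _ g⟩

end Vale.Agent.P095
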