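import Mathlib

/-! # Characters of the free monoid -/

namespace Vale.Agent.P095

/-- If the sums of products of two finite families of functions agree on all lists then every
function of the second family occurs in the first. -/
theorem exists_eq_of_sum_prod {K : Type*} [CommRing K] [IsDomain K] [CharZero K] {ι X : Type*}
    [Fintype ι] (u v : ι → X → K)
    (h : ∀ l : List X, ∑ i, (l.map (u i)).prod = ∑ i, (l.map (v i)).prod) (j : ι) :
    ∃ i, u i = v j := by
  classical
  by_contra hcon
  push Not at hcon
  let Um : ι → (FreeMonoid X →* K) := fun i => FreeMonoid.lift (u i)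
  let Vm : ι → (FreeMonoid X →* K) := fun i => FreeMonoid.lift (v i)
  have hinj : ∀ {a b : X → K}, FreeMonoid.lift a = FreeMonoid.lift b → a = b := fun hab =>
    FreeMonoid.lift.injective hab
  have hli := linearIndependent_monoidHom (FreeMonoid X) K
  let f : (FreeMonoid X →* K) →₀ K :=
    ∑ i, Finsupp.single (Um i) 1 - ∑ i, Finsupp.single (Vm i) 1
  have hf : Finsupp.linearCombination K
      (fun f : FreeMonoid X →* K => (f : FreeMonoid X → K)) f = 0 := by
    simp only [f, map_sub, map_sum, Finsupp.linearCombination_single, one_smul]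
    funext l
    have h1 := h l.toList
    simp only [Pi.sub_apply, Finset.sum_apply, Pi.zero_apply, Um, Vm, FreeMonoid.lift_apply]
    rw [h1, sub_self]
  have h0 : f = 0 := (linearIndependent_iff.1 hli) f hf
  have h1 : f (Vm j) = 0 := by rw [h0]; rfl
  have h2 : ∀ i, (Finsupp.single (Um i) (1 : K)) (Vm j) = 0 := by
    intro i
    rw [Finsupp.single_apply, if_neg]
    intro hij
    exact hcon i (hinj hij)
  simp only [f, Finsupp.sub_apply, Finsupp.finsetSum_apply, h2, Finset.sum_const_zero, zero_sub,
    neg_eq_zero, Finsupp.single_apply] at h1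
  rw [Finset.sum_boole, Nat.cast_eq_zero, Finset.card_eq_zero] at h1
  have h3 : j ∈ (Finset.univ.filter fun i => Vm i = Vm j) := by simp
  rw [h1] at h3
  simp at h3

end Vale.Agent.P095
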