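import Mathlib

/-! # Weak limits of bounded sequences of operators along an ultrafilter -/

open Filter Topology
open scoped InnerProductSpace

noncomputable section

namespace Vale.Agent.P095

variable {H : Type*} [NormedAddCommGroup H] [InnerProductSpace ℂ H]

theorem exists_lim_of_bdd (U : Ultrafilter ℕ) (f : ℕ → ℂ) (C : ℝ) (h : ∀ i, ‖f i‖ ≤ C) :
    ∃ L, ‖L‖ ≤ C ∧ Tendsto f U (𝓝 L) := by
  have hc : IsCompact (Metric.closedBall (0 : ℂ) C) := isCompact_closedBall 0 C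
  obtain ⟨L, hL1, hL⟩ := hc.ultrafilter_le_nhds' (U.map f) (by
    refine Filter.mem_map.mpr (Filter.univ_mem' fun n => ?_)
    change f n ∈ Metric.closedBall (0 : ℂ) C
    simpa using h n)
  exact ⟨L, by simpa using hL1, hL⟩

/-- Every bounded sequence of operators has a weak limit along an ultrafilter. -/
theorem exists_wlim [CompleteSpace H] (U : Ultrafilter ℕ) (T : ℕ → H →L[ℂ] H) (C : ℝ)
    (hT : ∀ i, ‖T i‖ ≤ C) :
    ∃ Q : H →L[ℂ] H, ∀ v w, Tendsto (fun i => ⟪T i v, w⟫_ℂ) U (𝓝 ⟪Q v, w⟫_ℂ) := by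
  have hb : ∀ v w i, ‖⟪T i v, w⟫_ℂ‖ ≤ C * ‖v‖ * ‖w‖ := by
    intro v w i
    refine (norm_inner_le_norm _ _).trans ?_
    refine mul_le_mul_of_nonneg_right ?_ (norm_nonneg _)
    exact ((T i).le_opNorm v).trans (mul_le_mul_of_nonneg_right (hT i) (norm_nonneg _))
  choose L hL1 hL2 using fun v w => exists_lim_of_bdd U (fun i => ⟪T i v, w⟫_ℂ) _ (hb v w)
  have huniq : ∀ {f : ℕ → ℂ} {y y'}, Tendsto f U (𝓝 y) → Tendsto f U (𝓝 y') → y = y' :=
    fun h1 h2 => tendsto_nhds_unique h1 h2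
  let B : H →ₗ⋆[ℂ] H →ₗ[ℂ] ℂ := LinearMap.mk₂'ₛₗ (starRingEnd ℂ) (RingHom.id ℂ) L
    (by
      intro v v' w
      refine huniq (hL2 (v + v') w) (((hL2 v w).add (hL2 v' w)).congr fun i => ?_)
      rw [map_add, inner_add_left])
    (by
      intro c v w
      refine huniq (hL2 (c • v) w) (((hL2 v w).const_mul (starRingEnd ℂ c)).congr fun i => ?_)
      rw [map_smul, inner_smul_left])
    (by
      intro v w w'
      refine huniq (hL2 v (w + w')) (((hL2 v w).add (hL2 v w')).congr fun i => ?_)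
      rw [inner_add_right])
    (by
      intro c v w
      refine huniq (hL2 v (c • w)) (((hL2 v w).const_mul c).congr fun i => ?_)
      rw [inner_smul_right])
  let B' : H →L⋆[ℂ] H →L[ℂ] ℂ := LinearMap.mkContinuous₂ B C (fun v w => hL1 v w)
  refine ⟨InnerProductSpace.continuousLinearMapOfBilin B', fun v w => ?_⟩
  rw [InnerProductSpace.continuousLinearMapOfBilin_apply]
  exact hL2 v w

/-- Operators agree if their matrix coefficients do. -/
theorem op_ext {S T : H →L[ℂ] H} (h : ∀ v w, ⟪S v, w⟫_ℂ = ⟪T v, w⟫_ℂ) : S = T := by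
  ext v
  exact ext_inner_right ℂ fun w => h v w

/-- An operator commuting with almost all `T i` commutes with the weak limit. -/
theorem wlim_commute [CompleteSpace H] {U : Ultrafilter ℕ} {T : ℕ → H →L[ℂ] H}
    {Q : H →L[ℂ] H} (hQ : ∀ v w, Tendsto (fun i => ⟪T i v, w⟫_ℂ) U (𝓝 ⟪Q v, w⟫_ℂ))
    (S : H →L[ℂ] H) (h : ∀ᶠ i in (U : Filter ℕ), Commute S (T i)) : Commute S Q := by
  refine op_ext fun v w => ?_
  have h1 : Tendsto (fun i => ⟪T i (S v), w⟫_ℂ) U (𝓝 ⟪Q (S v), w⟫_ℂ) := hQ (S v) w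
  have h2 : Tendsto (fun i => ⟪T i v, ContinuousLinearMap.adjoint S w⟫_ℂ) U
      (𝓝 ⟪Q v, ContinuousLinearMap.adjoint S w⟫_ℂ) := hQ v _
  have h3 : Tendsto (fun i => ⟪T i (S v), w⟫_ℂ) U
      (𝓝 ⟪Q v, ContinuousLinearMap.adjoint S w⟫_ℂ) := by
    refine h2.congr' ?_
    filter_upwards [h] with i hi
    rw [ContinuousLinearMap.adjoint_inner_right]
    have h4 := DFunLike.congr_fun hi.eq v
    change S (T i v) = T i (S v) at h4
    rw [h4]
  have h4 := tendsto_nhds_unique h1 h3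
  rw [ContinuousLinearMap.adjoint_inner_right] at h4
  exact h4.symm

end Vale.Agent.P095
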