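import Vale.Agent.P095.Basic
import Vale.Agent.P095.WLim

/-! # Words in commuting copies and their weak limits -/

open Filter Topology
open scoped InnerProductSpace

noncomputable section

universe u

namespace Vale.Agent.P095

/-- Iterated ultrafilter on lists of indices. -/
def UU (U : Ultrafilter ℕ) : ℕ → Ultrafilter (List ℕ)
  | 0 => pure []
  | n + 1 => (UU U n).bind (fun t => U.map (fun i => i :: t))

theorem eventually_UU_zero (U : Ultrafilter ℕ) (p : List ℕ → Prop) :
    (∀ᶠ l in (UU U 0 : Filter (List ℕ)), p l) ↔ p [] := by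
  simp [UU]

theorem eventually_UU_succ (U : Ultrafilter ℕ) (n : ℕ) (p : List ℕ → Prop) :
    (∀ᶠ l in (UU U (n + 1) : Filter (List ℕ)), p l) ↔
      ∀ᶠ t in (UU U n : Filter (List ℕ)), ∀ᶠ i in (U : Filter ℕ), p (i :: t) := Iff.rfl

theorem eventually_nodup {U : Ultrafilter ℕ} (hU : (U : Filter ℕ) ≤ cofinite) (n : ℕ) :
    ∀ᶠ t in (UU U n : Filter (List ℕ)), t.Nodup ∧ t.length = n := by
  induction n with
  | zero =>
    rw [eventually_UU_zero]
    exact ⟨List.nodup_nil, rfl⟩
  | succ n ih =>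
    rw [eventually_UU_succ]
    filter_upwards [ih] with t ht
    have h1 : ∀ᶠ i in (U : Filter ℕ), i ∉ {i | i ∈ t} := hU (by
      rw [Filter.mem_cofinite]
      have h2 : {i : ℕ | i ∉ {i | i ∈ t}}ᶜ = {i | i ∈ t} := by
        ext i
        simp
      have h3 : ({i | i ∈ t} : Set ℕ).Finite := List.finite_toSet t
      rw [← h2] at h3
      exact h3)
    filter_upwards [h1] with i hi
    exact ⟨List.nodup_cons.2 ⟨hi, ht.1⟩, by simp [ht.2]⟩

section words

variable {D E : Type*} [Monoid E]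

/-- The product `ρ_{t 0} (x 0) ρ_{t 1} (x 1) ...`. -/
def wd (ρ : ℕ → D → E) : List D → List ℕ → E
  | a :: x, i :: t => ρ i a * wd ρ x t
  | _, _ => 1

theorem wd_cons (ρ : ℕ → D → E) (a : D) (x : List D) (i : ℕ) (t : List ℕ) :
    wd ρ (a :: x) (i :: t) = ρ i a * wd ρ x t := rfl

theorem wd_nil (ρ : ℕ → D → E) (t : List ℕ) : wd ρ [] t = 1 := by
  unfold wd
  rfl

theorem wd_nil_right (ρ : ℕ → D → E) (x : List D) : wd ρ x [] = 1 := by
  cases x <;> rfl

theorem commute_wd {ρ : ℕ → D → E} (hρ : ∀ i j, i ≠ j → ∀ x y, Commute (ρ i x) (ρ j y)) (i : ℕ)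
    (b : D) : ∀ (x : List D) (t : List ℕ), i ∉ t → Commute (ρ i b) (wd ρ x t) := by
  intro x
  induction x with
  | nil =>
    intro t _
    rw [wd_nil]
    exact Commute.one_right _
  | cons a x ih =>
    intro t ht
    cases t with
    | nil => exact Commute.one_right _
    | cons j t =>
      rw [wd_cons]
      rw [List.mem_cons, not_or] at ht
      exact (hρ i j ht.1 b a).mul_right (ih t ht.2)

theorem wd_mul {ρ : ℕ → D → E} (hρ : ∀ i j, i ≠ j → ∀ x y, Commute (ρ i x) (ρ j y))
    [Mul D] (hm : ∀ i x y, ρ i (x * y) = ρ i x * ρ i y) {P : Type*} (f f' : P → D) :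
    ∀ (l : List P) (t : List ℕ), t.Nodup →
      wd ρ (l.map f) t * wd ρ (l.map f') t = wd ρ (l.map fun p => f p * f' p) t := by
  intro l
  induction l with
  | nil =>
    intro t _
    simp [wd_nil]
  | cons a l ih =>
    intro t ht
    cases t with
    | nil => simp [wd_nil_right]
    | cons i t =>
      rw [List.nodup_cons] at ht
      simp only [List.map_cons, wd_cons]
      rw [← ih t ht.2, hm]
      have h1 := commute_wd hρ i (f' a) (l.map f) t ht.1
      calc ρ i (f a) * wd ρ (l.map f) t * (ρ i (f' a) * wd ρ (l.map f') t)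
          = ρ i (f a) * (wd ρ (l.map f) t * ρ i (f' a)) * wd ρ (l.map f') t := by
            simp only [mul_assoc]
        _ = ρ i (f a) * (ρ i (f' a) * wd ρ (l.map f) t) * wd ρ (l.map f') t := by rw [h1.eq]
        _ = _ := by simp only [mul_assoc]

end words

/-- Equivariance of words. -/
theorem map_wd {D E : Type*} [Monoid E] {ρ : ℕ → D → E} (s : E →* E) (τ : D → D)
    (h : ∀ i x, ρ i (τ x) = s (ρ i x)) : ∀ (x : List D) (t : List ℕ),
    s (wd ρ x t) = wd ρ (x.map τ) t := by
  intro x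
  induction x with
  | nil =>
    intro t
    simp [wd_nil]
  | cons a x ih =>
    intro t
    cases t with
    | nil => simp [wd_nil_right]
    | cons i t =>
      rw [wd_cons, map_mul, List.map_cons, wd_cons, h, ih]

/-- Weak limits of words. -/
theorem tendsto_wd {D E : Type*} [CStarAlgebra E] {H : Type*} [NormedAddCommGroup H]
    [InnerProductSpace ℂ H] [CompleteSpace H] (U : Ultrafilter ℕ) (π : E →⋆ₐ[ℂ] (H →L[ℂ] H))
    (ρ : ℕ → D → E) (Q : D → H →L[ℂ] H)
    (hQ : ∀ x v w, Tendsto (fun i => ⟪π (ρ i x) v, w⟫_ℂ) U (𝓝 ⟪Q x v, w⟫_ℂ)) :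
    ∀ (x : List D) (v w : H), Tendsto (fun t => ⟪π (wd ρ x t) v, w⟫_ℂ) (UU U x.length)
      (𝓝 ⟪(x.map Q).prod v, w⟫_ℂ) := by
  intro x
  induction x with
  | nil =>
    intro v w
    rw [Metric.tendsto_nhds]
    intro ε hε
    rw [List.length_nil, eventually_UU_zero, wd_nil, map_one, List.map_nil, List.prod_nil,
      dist_self]
    exact hε
  | cons a x ih =>
    intro v w
    rw [Metric.tendsto_nhds]
    intro ε hε
    rw [List.length_cons, eventually_UU_succ]
    have h1 := ih v (ContinuousLinearMap.adjoint (Q a) w)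
    rw [Metric.tendsto_nhds] at h1
    filter_upwards [h1 (ε / 2) (half_pos hε)] with t ht
    have h2 := hQ a (π (wd ρ x t) v) w
    rw [Metric.tendsto_nhds] at h2
    filter_upwards [h2 (ε / 2) (half_pos hε)] with i hi
    rw [ContinuousLinearMap.adjoint_inner_right, ContinuousLinearMap.adjoint_inner_right] at ht
    have e1 : π (wd ρ (a :: x) (i :: t)) v = π (ρ i a) (π (wd ρ x t) v) := by
      rw [wd_cons, map_mul]
      rfl
    have e2 : ((a :: x).map Q).prod v = Q a ((x.map Q).prod v) := by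
      rw [List.map_cons, List.prod_cons]
      rfl
    rw [e1, e2]
    calc dist ⟪π (ρ i a) (π (wd ρ x t) v), w⟫_ℂ ⟪Q a ((x.map Q).prod v), w⟫_ℂ
        ≤ dist ⟪π (ρ i a) (π (wd ρ x t) v), w⟫_ℂ ⟪Q a (π (wd ρ x t) v), w⟫_ℂ
          + dist ⟪Q a (π (wd ρ x t) v), w⟫_ℂ ⟪Q a ((x.map Q).prod v), w⟫_ℂ :=
            dist_triangle _ _ _
      _ < ε := by linarith

end Vale.Agent.P095
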