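import Vale.Agent.P095.Rep
import Vale.Agent.P095.Words
import Vale.Agent.P095.FreeChar
import Vale.Agent.P101.Characters

/-! # [E4] no characters on the fixed-point algebra -/

open Filter Topology
open scoped InnerProductSpace

noncomputable section

universe u

namespace Vale.Agent.P095

open Vale.Agent.P101

section

variable {G : Type*} [Group G] [Fintype G] {E : Type u} [CStarAlgebra E] {σ : G → E →⋆ₐ[ℂ] E}
  {D : Type*} {H : Type*} [NormedAddCommGroup H] [InnerProductSpace ℂ H] [CompleteSpace H]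

/-- weak limits of the invariant sums of words -/
theorem tendsto_tr_wd (U : Ultrafilter ℕ) (π : E →⋆ₐ[ℂ] (H →L[ℂ] H)) (ρ : ℕ → D → E)
    (τ : G → D → D) (hρτ : ∀ g i x, ρ i (τ g x) = σ g (ρ i x)) (Q : D → H →L[ℂ] H)
    (hQ : ∀ x v w, Tendsto (fun i => ⟪π (ρ i x) v, w⟫_ℂ) U (𝓝 ⟪Q x v, w⟫_ℂ))
    (x : List D) (v w : H) :
    Tendsto (fun t => ⟪π (tr σ (wd ρ x t)) v, w⟫_ℂ) (UU U x.length)
      (𝓝 ⟪(∑ g, ((x.map (τ g)).map Q).prod) v, w⟫_ℂ) := by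
  have h1 : ∀ g, Tendsto (fun t => ⟪π (wd ρ (x.map (τ g)) t) v, w⟫_ℂ) (UU U x.length)
      (𝓝 ⟪((x.map (τ g)).map Q).prod v, w⟫_ℂ) := by
    intro g
    have := tendsto_wd U π ρ Q hQ (x.map (τ g)) v w
    rwa [List.length_map] at this
  have h2 := tendsto_finsetSum Finset.univ fun g _ => h1 g
  have h3 : ∀ t, ∑ g, ⟪π (wd ρ (x.map (τ g)) t) v, w⟫_ℂ = ⟪π (tr σ (wd ρ x t)) v, w⟫_ℂ := by
    intro t
    rw [← sum_inner, tr, map_sum]
    congr 1
    rw [sum_apply]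
    refine Finset.sum_congr rfl fun g _ => ?_
    have h4 := map_wd (ρ := ρ) (σ g : E →* E) (τ g) (fun i x => hρτ g i x) x t
    change σ g (wd ρ x t) = _ at h4
    rw [h4]
  have h4 : ∑ g, ⟪((x.map (τ g)).map Q).prod v, w⟫_ℂ
      = ⟪(∑ g, ((x.map (τ g)).map Q).prod) v, w⟫_ℂ := by
    rw [← sum_inner, sum_apply]
  rw [← h4]
  exact h2.congr h3

/-- The vector `Ω` is an eigenvector of the limits. -/
theorem exists_eigen (hσ : IsAct σ) (χ : fixAlg σ →⋆ₐ[ℂ] ℂ) (U : Ultrafilter ℕ)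
    (π : E →⋆ₐ[ℂ] (H →L[ℂ] H)) (Ω : H) (hΩ : Ω ≠ 0)
    (hχ : ∀ T (hT : T ∈ fixAlg σ), π T Ω = χ ⟨T, hT⟩ • Ω)
    (n : ℕ) (A : List ℕ → E) (X : H →L[ℂ] H)
    (hX : ∀ w, Tendsto (fun t => ⟪π (tr σ (A t)) Ω, w⟫_ℂ) (UU U n) (𝓝 ⟪X Ω, w⟫_ℂ)) :
    ∃ c : ℂ, X Ω = c • Ω ∧
      Tendsto (fun t => χ ⟨tr σ (A t), tr_mem hσ _⟩) (UU U n) (𝓝 c) := by
  have hin : ⟪Ω, Ω⟫_ℂ ≠ 0 := inner_self_ne_zero.2 hΩ
  have h1 : ∀ w t, ⟪π (tr σ (A t)) Ω, w⟫_ℂ
      = (starRingEnd ℂ) (χ ⟨tr σ (A t), tr_mem hσ _⟩) * ⟪Ω, w⟫_ℂ := by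
    intro w t
    rw [hχ _ (tr_mem hσ _), inner_smul_left]
  have h2 : Tendsto (fun t => (starRingEnd ℂ) (χ ⟨tr σ (A t), tr_mem hσ _⟩)) (UU U n)
      (𝓝 (⟪X Ω, Ω⟫_ℂ / ⟪Ω, Ω⟫_ℂ)) := by
    refine ((hX Ω).div_const ⟪Ω, Ω⟫_ℂ).congr fun t => ?_
    rw [h1, mul_div_cancel_right₀ _ hin]
  have h3 : Tendsto (fun t => χ ⟨tr σ (A t), tr_mem hσ _⟩) (UU U n)
      (𝓝 ((starRingEnd ℂ) (⟪X Ω, Ω⟫_ℂ / ⟪Ω, Ω⟫_ℂ))) := by
    refine ((Complex.continuous_conj.tendsto _).comp h2).congr fun t => ?_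
    simp
  refine ⟨_, ?_, h3⟩
  refine ext_inner_right ℂ fun w => ?_
  rw [inner_smul_left]
  have h4 : Tendsto (fun t => ⟪π (tr σ (A t)) Ω, w⟫_ℂ) (UU U n)
      (𝓝 ((⟪X Ω, Ω⟫_ℂ / ⟪Ω, Ω⟫_ℂ) * ⟪Ω, w⟫_ℂ)) := by
    refine (h2.mul_const ⟪Ω, w⟫_ℂ).congr fun t => ?_
    rw [h1]
  have h5 := tendsto_nhds_unique (hX w) h4
  rw [h5]
  simp

/-- The key identity. -/
theorem key_identity (hσ : IsAct σ) (χ : fixAlg σ →⋆ₐ[ℂ] ℂ) {U : Ultrafilter ℕ}
    (hU : (U : Filter ℕ) ≤ cofinite)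
    (π : E →⋆ₐ[ℂ] (H →L[ℂ] H)) (Ω : H) (hΩ : Ω ≠ 0)
    (hχ : ∀ T (hT : T ∈ fixAlg σ), π T Ω = χ ⟨T, hT⟩ • Ω)
    [Mul D] (ρ : ℕ → D → E) (hρ : ∀ i j, i ≠ j → ∀ x y, Commute (ρ i x) (ρ j y))
    (hm : ∀ i x y, ρ i (x * y) = ρ i x * ρ i y)
    (τ : G → D → D) (hρτ : ∀ g i x, ρ i (τ g x) = σ g (ρ i x)) (Q : D → H →L[ℂ] H)
    (hQ : ∀ x v w, Tendsto (fun i => ⟪π (ρ i x) v, w⟫_ℂ) U (𝓝 ⟪Q x v, w⟫_ℂ))
    (l : List (D × D)) :
    (∑ g, ∑ k, (l.map fun p => Q (τ g p.1 * τ k p.2)).prod) Ω =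
      ((∑ g, (l.map fun p => Q (τ g p.1)).prod) * (∑ k, (l.map fun p => Q (τ k p.2)).prod)) Ω := by
  obtain ⟨c₁, h11, h12⟩ := exists_eigen hσ χ U π Ω hΩ hχ l.length
    (fun t => wd ρ (l.map Prod.fst) t) (∑ g, (l.map fun p => Q (τ g p.1)).prod) (by
      intro w
      have := tendsto_tr_wd U π ρ τ hρτ Q hQ (l.map Prod.fst) Ω w
      simpa [List.map_map, Function.comp_def] using this)
  obtain ⟨c₂, h21, h22⟩ := exists_eigen hσ χ U π Ω hΩ hχ l.length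
    (fun t => wd ρ (l.map Prod.snd) t) (∑ g, (l.map fun p => Q (τ g p.2)).prod) (by
      intro w
      have := tendsto_tr_wd U π ρ τ hρτ Q hQ (l.map Prod.snd) Ω w
      simpa [List.map_map, Function.comp_def] using this)
  have hR : ((∑ g, (l.map fun p => Q (τ g p.1)).prod) *
      (∑ k, (l.map fun p => Q (τ k p.2)).prod)) Ω = (c₂ * c₁) • Ω := by
    change (∑ g, (l.map fun p => Q (τ g p.1)).prod)
      ((∑ k, (l.map fun p => Q (τ k p.2)).prod) Ω) = _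
    rw [h21, map_smul, h11, smul_smul]
  rw [hR]
  refine ext_inner_right ℂ fun w => ?_
  -- first limit
  have hL1 : Tendsto (fun t => ∑ g, ∑ k,
      ⟪π (wd ρ (l.map fun p => τ g p.1 * τ k p.2) t) Ω, w⟫_ℂ) (UU U l.length)
      (𝓝 ⟪(∑ g, ∑ k, (l.map fun p => Q (τ g p.1 * τ k p.2)).prod) Ω, w⟫_ℂ) := by
    have h4 : ⟪(∑ g, ∑ k, (l.map fun p => Q (τ g p.1 * τ k p.2)).prod) Ω, w⟫_ℂ
        = ∑ g, ∑ k, ⟪(l.map fun p => Q (τ g p.1 * τ k p.2)).prod Ω, w⟫_ℂ := by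
      rw [sum_apply, sum_inner]
      refine Finset.sum_congr rfl fun g _ => ?_
      rw [sum_apply, sum_inner]
    rw [h4]
    refine tendsto_finsetSum Finset.univ fun g _ => tendsto_finsetSum Finset.univ fun k _ => ?_
    have := tendsto_wd U π ρ Q hQ (l.map fun p => τ g p.1 * τ k p.2) Ω w
    rw [List.length_map, List.map_map] at this
    exact this
  -- second limit
  have hL2 : Tendsto (fun t => ∑ g, ∑ k,
      ⟪π (wd ρ (l.map fun p => τ g p.1 * τ k p.2) t) Ω, w⟫_ℂ) (UU U l.length)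
      (𝓝 ⟪(c₂ * c₁) • Ω, w⟫_ℂ) := by
    have h5 : Tendsto (fun t => ⟪(χ ⟨tr σ (wd ρ (l.map Prod.snd) t), tr_mem hσ _⟩ *
        χ ⟨tr σ (wd ρ (l.map Prod.fst) t), tr_mem hσ _⟩) • Ω, w⟫_ℂ) (UU U l.length)
        (𝓝 ⟪(c₂ * c₁) • Ω, w⟫_ℂ) :=
      ((h22.mul h12).smul_const Ω).inner tendsto_const_nhds
    refine h5.congr' ?_
    filter_upwards [eventually_nodup hU l.length] with t ht
    have h6 : π (tr σ (wd ρ (l.map Prod.fst) t) * tr σ (wd ρ (l.map Prod.snd) t)) Ω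
        = (χ ⟨tr σ (wd ρ (l.map Prod.snd) t), tr_mem hσ _⟩ *
          χ ⟨tr σ (wd ρ (l.map Prod.fst) t), tr_mem hσ _⟩) • Ω := by
      rw [map_mul]
      change π (tr σ (wd ρ (l.map Prod.fst) t)) (π (tr σ (wd ρ (l.map Prod.snd) t)) Ω) = _
      rw [hχ _ (tr_mem hσ _), map_smul, hχ _ (tr_mem hσ _), smul_smul]
    rw [← h6]
    have h7 : tr σ (wd ρ (l.map Prod.fst) t) * tr σ (wd ρ (l.map Prod.snd) t)
        = ∑ g, ∑ k, wd ρ (l.map fun p => τ g p.1 * τ k p.2) t := by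
      unfold tr
      rw [Finset.sum_mul_sum]
      refine Finset.sum_congr rfl fun g _ => Finset.sum_congr rfl fun k _ => ?_
      have e1 := map_wd (ρ := ρ) (σ g : E →* E) (τ g) (fun i x => hρτ g i x) (l.map Prod.fst) t
      have e2 := map_wd (ρ := ρ) (σ k : E →* E) (τ k) (fun i x => hρτ k i x) (l.map Prod.snd) t
      change σ g (wd ρ (l.map Prod.fst) t) = _ at e1
      change σ k (wd ρ (l.map Prod.snd) t) = _ at e2
      rw [e1, e2, List.map_map, List.map_map]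
      exact wd_mul hρ hm (fun p => τ g p.1) (fun p => τ k p.2) l t ht.1
    rw [h7, map_sum, sum_apply, sum_inner]
    refine Finset.sum_congr rfl fun g _ => ?_
    rw [map_sum, sum_apply, sum_inner]
  exact tendsto_nhds_unique hL1 hL2

end

/-- A commutative algebra of operators has a quotient domain in which the operators killing a
given vector vanish. -/
theorem exists_quot {H : Type u} [NormedAddCommGroup H] [InnerProductSpace ℂ H]
    {R : Type u} [CommRing R] [Algebra ℂ R] (v : R →+* (H →L[ℂ] H)) (Ω : H) (hΩ : Ω ≠ 0) :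
    ∃ (K : Type u) (_ : CommRing K) (_ : IsDomain K) (_ : CharZero K) (mk : R →+* K),
      ∀ T, v T Ω = 0 → mk T = 0 := by
  let I : Ideal R :=
    { carrier := {T | v T Ω = 0}
      add_mem' := by
        intro T T' hT hT'
        change v (T + T') Ω = 0
        rw [map_add]
        change v T Ω + v T' Ω = 0
        rw [show v T Ω = 0 from hT, show v T' Ω = 0 from hT', add_zero]
      zero_mem' := by
        change v 0 Ω = 0
        rw [map_zero]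
        rfl
      smul_mem' := by
        intro c T hT
        change v (c * T) Ω = 0
        rw [map_mul]
        change v c (v T Ω) = 0
        rw [show v T Ω = 0 from hT, map_zero] }
  have hI : I ≠ ⊤ := by
    rw [Ideal.ne_top_iff_one]
    intro h2
    have h3 : v 1 Ω = 0 := h2
    rw [map_one] at h3
    exact hΩ h3
  obtain ⟨M, hM, hIM⟩ := Ideal.exists_le_maximal I hI
  have hMp : M.IsPrime := hM.isPrime
  have hnt : Nontrivial (R ⧸ M) := Ideal.Quotient.nontrivial_iff.2 hM.ne_top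
  refine ⟨R ⧸ M, inferInstance, Ideal.Quotient.isDomain M,
    charZero_of_injective_algebraMap (algebraMap ℂ (R ⧸ M)).injective, Ideal.Quotient.mk M,
    fun T hT => Ideal.Quotient.eq_zero_iff_mem.2 (hIM hT)⟩

/-- **[E4]** -/
theorem noChar_fix {G : Type*} [Group G] [Finite G] {E : Type u} [CStarAlgebra E]
    (σ : G → E →⋆ₐ[ℂ] E) (hσ : IsAct σ) (hcp : HasEqCopies σ) (h : IsEmpty (E →⋆ₐ[ℂ] ℂ)) :
    IsEmpty (fixAlg σ →⋆ₐ[ℂ] ℂ) := by
  classical
  cases nonempty_fintype G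
  refine ⟨fun χ => ?_⟩
  obtain ⟨n, a, s, b, hs, h1⟩ := genOne_commutators h
  choose x y hxy using hs
  let S0 : Set E := Set.range a ∪ Set.range b ∪ Set.range x ∪ Set.range y
  let S : Set E := ⋃ g, σ g '' S0
  have hS0 : S0.Finite :=
    (((Set.finite_range a).union (Set.finite_range b)).union (Set.finite_range x)).union
      (Set.finite_range y)
  have hS : S.Finite := Set.finite_iUnion fun g => hS0.image _
  have hSinv : ∀ g, ∀ z ∈ S, σ g z ∈ S := by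
    intro g z hz
    obtain ⟨k, w, hw, rfl⟩ := Set.mem_iUnion.1 hz
    exact Set.mem_iUnion.2 ⟨g * k, w, hw, hσ.mul g k w⟩
  have hS0S : S0 ⊆ S := fun z hz => Set.mem_iUnion.2 ⟨1, z, hz, hσ.one z⟩
  obtain ⟨ρ, hρc, hρn, hρe⟩ := hcp S hS hSinv
  have hDinv : ∀ g, ∀ d ∈ StarAlgebra.adjoin ℂ S, σ g d ∈ StarAlgebra.adjoin ℂ S := by
    intro g d hd
    have h2 : StarAlgebra.adjoin ℂ S ≤ (StarAlgebra.adjoin ℂ S).comap (σ g) :=
      StarAlgebra.adjoin_le fun z hz => StarAlgebra.subset_adjoin ℂ S (hSinv g z hz)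
    exact h2 hd
  let τ : G → StarAlgebra.adjoin ℂ S → StarAlgebra.adjoin ℂ S := fun g d => ⟨σ g d, hDinv g d d.2⟩
  have hρτ : ∀ g i d, ρ i (τ g d) = σ g (ρ i d) := fun g i d => hρe g i d (τ g d) rfl
  have hτone : ∀ d, τ 1 d = d := fun d => Subtype.ext (hσ.one d)
  have hτ1 : ∀ g, τ g 1 = 1 := fun g => Subtype.ext (map_one (σ g))
  obtain ⟨H, _, _, _, π, Ω, hΩ, hχ⟩ := exists_rep hσ χ
  let U : Ultrafilter ℕ := hyperfilter ℕ
  have hU : (U : Filter ℕ) ≤ cofinite := Filter.hyperfilter_le_cofinite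
  have hex : ∀ d : StarAlgebra.adjoin ℂ S, ∃ Q : H →L[ℂ] H, ∀ v w,
      Tendsto (fun i => ⟪π (ρ i d) v, w⟫_ℂ) U (𝓝 ⟪Q v, w⟫_ℂ) := fun d =>
    exists_wlim U (fun i => π (ρ i d)) ‖(d : E)‖ fun i =>
      (NonUnitalStarAlgHom.norm_apply_le π _).trans (hρn i d)
  choose Q hQ using hex
  have huniq : ∀ {f : ℕ → ℂ} {y y'}, Tendsto f U (𝓝 y) → Tendsto f U (𝓝 y') → y = y' :=
    fun h1 h2 => tendsto_nhds_unique h1 h2
  have hQadd : ∀ d d', Q (d + d') = Q d + Q d' := fun d d' => op_ext fun v w => by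
    rw [add_apply, inner_add_left]
    refine huniq (hQ (d + d') v w) (((hQ d v w).add (hQ d' v w)).congr fun i => ?_)
    rw [map_add, map_add, add_apply, inner_add_left]
  have hQone : Q 1 = 1 := op_ext fun v w => by
    refine huniq (hQ 1 v w) (tendsto_const_nhds.congr fun i => ?_)
    rw [map_one, map_one]
  have hQπ : ∀ d j d', Commute (π (ρ j d')) (Q d) := fun d j d' =>
    wlim_commute (hQ d) _ (by
      have h2 : ∀ᶠ i in (U : Filter ℕ), i ≠ j := hU (by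
        rw [Filter.mem_cofinite]
        have h3 : {i : ℕ | i ≠ j}ᶜ = {j} := by
          ext i
          simp
        rw [h3]
        exact Set.finite_singleton j)
      filter_upwards [h2] with i hi
      exact (hρc j i hi.symm d' d).map π)
  have hQQ : ∀ d d', Commute (Q d') (Q d) := fun d d' =>
    wlim_commute (hQ d) _ (Eventually.of_forall fun i => (hQπ d' i d).symm)
  -- the commutative algebra generated by the limits
  have hcomm : ∀ T ∈ Set.range Q, ∀ T' ∈ Set.range Q, T * T' = T' * T := by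
    rintro _ ⟨d, rfl⟩ _ ⟨d', rfl⟩
    exact (hQQ d' d).eq
  let hMC : CommRing (Algebra.adjoin ℂ (Set.range Q)) := Algebra.adjoinCommRingOfComm ℂ hcomm
  obtain ⟨K, _, _, _, mk, hmk⟩ := exists_quot (R := Algebra.adjoin ℂ (Set.range Q))
    ((Algebra.adjoin ℂ (Set.range Q)).val : Algebra.adjoin ℂ (Set.range Q) →+* (H →L[ℂ] H)) Ω hΩ
  let q : StarAlgebra.adjoin ℂ S → Algebra.adjoin ℂ (Set.range Q) := fun d =>
    ⟨Q d, Algebra.subset_adjoin ⟨d, rfl⟩⟩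
  let ψ : StarAlgebra.adjoin ℂ S → K := fun d => mk (q d)
  have hval : ∀ (l : List (StarAlgebra.adjoin ℂ S × StarAlgebra.adjoin ℂ S))
      (f : StarAlgebra.adjoin ℂ S × StarAlgebra.adjoin ℂ S → StarAlgebra.adjoin ℂ S),
      (((l.map fun p => q (f p)).prod : Algebra.adjoin ℂ (Set.range Q)) : H →L[ℂ] H)
        = (l.map fun p => Q (f p)).prod := by
    intro l f
    rw [← Subalgebra.coe_val, map_list_prod, List.map_map]
    rfl
  have hid : ∀ l : List (StarAlgebra.adjoin ℂ S × StarAlgebra.adjoin ℂ S),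
      ∑ gk : G × G, (l.map fun p => ψ (τ gk.1 p.1) * ψ (τ gk.2 p.2)).prod =
      ∑ gk : G × G, (l.map fun p => ψ (τ gk.1 p.1 * τ gk.2 p.2)).prod := by
    intro l
    have hk := key_identity hσ χ hU π Ω hΩ hχ (fun i d => ρ i d)
      (fun i j hij x y => hρc i j hij x y) (fun i x y => map_mul (ρ i) x y) τ hρτ Q hQ l
    have h3 : mk ((∑ g, (l.map fun p => q (τ g p.1)).prod) *
        (∑ k, (l.map fun p => q (τ k p.2)).prod)
        - ∑ g, ∑ k, (l.map fun p => q (τ g p.1 * τ k p.2)).prod) = 0 := by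
      apply hmk
      change (((∑ g, (l.map fun p => q (τ g p.1)).prod) *
        (∑ k, (l.map fun p => q (τ k p.2)).prod)
        - ∑ g, ∑ k, (l.map fun p => q (τ g p.1 * τ k p.2)).prod :
        Algebra.adjoin ℂ (Set.range Q)) : H →L[ℂ] H) Ω = 0
      rw [← Subalgebra.coe_val, map_sub, map_mul, map_sum, map_sum, map_sum]
      simp only [map_sum, Subalgebra.coe_val, hval]
      rw [sub_apply, ← hk, sub_self]
    rw [map_sub, map_mul, map_sum, map_sum, map_sum, sub_eq_zero] at h3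
    simp only [map_sum, map_list_prod, List.map_map] at h3
    rw [Fintype.sum_prod_type, Fintype.sum_prod_type]
    simp only [List.prod_map_mul]
    rw [← Finset.sum_mul_sum]
    exact h3
  obtain ⟨⟨g, k⟩, hgk⟩ := exists_eq_of_sum_prod
    (fun (gk : G × G) (p : StarAlgebra.adjoin ℂ S × StarAlgebra.adjoin ℂ S) =>
      ψ (τ gk.1 p.1) * ψ (τ gk.2 p.2))
    (fun (gk : G × G) p => ψ (τ gk.1 p.1 * τ gk.2 p.2)) hid (1, 1)
  have hψ : ∀ d d', ψ (τ g d) * ψ (τ k d') = ψ (d * d') := by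
    intro d d'
    have h2 := congrFun hgk (d, d')
    simpa [hτone] using h2
  have hψ1 : ψ 1 = 1 := by
    have h2 : q 1 = 1 := Subtype.ext hQone
    change mk (q 1) = 1
    rw [h2, map_one]
  have hψg : ∀ d, ψ (τ g d) = ψ d := by
    intro d
    have h2 := hψ d 1
    rw [hτ1, hψ1, mul_one, mul_one] at h2
    exact h2
  have hψk : ∀ d, ψ (τ k d) = ψ d := by
    intro d
    have h2 := hψ 1 d
    rw [hτ1, hψ1, one_mul, one_mul] at h2
    exact h2
  have hψm : ∀ d d', ψ (d * d') = ψ d * ψ d' := by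
    intro d d'
    rw [← hψ, hψg, hψk]
  have hψa : ∀ d d', ψ (d + d') = ψ d + ψ d' := by
    intro d d'
    have h2 : q (d + d') = q d + q d' := Subtype.ext (hQadd d d')
    change mk (q (d + d')) = mk (q d) + mk (q d')
    rw [h2, map_add]
  have hψ0 : ψ 0 = 0 := by
    have h2 := hψa 0 0
    rw [add_zero] at h2
    exact left_eq_add.1 h2
  let Ψ : StarAlgebra.adjoin ℂ S →+* K :=
    { toFun := ψ
      map_one' := hψ1
      map_mul' := hψm
      map_zero' := hψ0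
      map_add' := hψa }
  have ha : ∀ i, a i ∈ StarAlgebra.adjoin ℂ S := fun i =>
    StarAlgebra.subset_adjoin ℂ S (hS0S (Or.inl (Or.inl (Or.inl ⟨i, rfl⟩))))
  have hb : ∀ i, b i ∈ StarAlgebra.adjoin ℂ S := fun i =>
    StarAlgebra.subset_adjoin ℂ S (hS0S (Or.inl (Or.inl (Or.inr ⟨i, rfl⟩))))
  have hx : ∀ i, x i ∈ StarAlgebra.adjoin ℂ S := fun i =>
    StarAlgebra.subset_adjoin ℂ S (hS0S (Or.inl (Or.inr ⟨i, rfl⟩)))
  have hy : ∀ i, y i ∈ StarAlgebra.adjoin ℂ S := fun i =>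
    StarAlgebra.subset_adjoin ℂ S (hS0S (Or.inr ⟨i, rfl⟩))
  have h2 : (∑ i, (⟨a i, ha i⟩ : StarAlgebra.adjoin ℂ S) *
      (⟨x i, hx i⟩ * ⟨y i, hy i⟩ - ⟨y i, hy i⟩ * ⟨x i, hx i⟩) * ⟨b i, hb i⟩) = 1 := by
    apply Subtype.ext
    rw [← StarSubalgebra.subtype_apply, map_sum]
    simp only [map_mul, map_sub, StarSubalgebra.subtype_apply]
    refine Eq.trans ?_ h1
    refine Finset.sum_congr rfl fun i _ => ?_
    rw [hxy i]
  have h3 := congrArg Ψ h2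
  rw [map_sum, map_one] at h3
  have h4 : ∀ i, Ψ ((⟨a i, ha i⟩ : StarAlgebra.adjoin ℂ S) *
      (⟨x i, hx i⟩ * ⟨y i, hy i⟩ - ⟨y i, hy i⟩ * ⟨x i, hx i⟩) * ⟨b i, hb i⟩) = 0 := by
    intro i
    rw [map_mul, map_mul, map_sub, map_mul, map_mul, mul_comm (Ψ ⟨x i, hx i⟩), sub_self,
      mul_zero, zero_mul]
  simp only [h4, Finset.sum_const_zero] at h3
  exact zero_ne_one h3

end Vale.Agent.P095
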