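import Vale.Agent.P095.SeqAct
import Vale.Agent.P101.JSTransfer

/-! # [E7b] the half flip argument with fixed points -/

open Filter Topology TopologicalSpace BoundedContinuousFunction
open scoped TensorProduct

noncomputable section

universe u

namespace Vale.Agent.P095

open Vale.Agent.P101

variable {A Z : Type u} [CStarAlgebra A] [CStarAlgebra Z] {ω : Ultrafilter ℕ}

/-- The half flip argument, abstract form. -/
theorem transfer_abs_fix {B Q S : Type u} [CStarAlgebra B] [CStarAlgebra Q] [CStarAlgebra S]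
    [Nontrivial Q]
    (hs : IsSimpleRing Z) (hn : IsNuclear Z) (hf : HasApproxInnerHalfFlip Z)
    (φ : A →⋆ₐ[ℂ] B) (j₁ : Z →⋆ₐ[ℂ] B) (hB : IsTensorCompletion φ j₁)
    (c : B →⋆ₐ[ℂ] Q) (hc : ∀ b, ‖c b‖ = ‖b‖) (hφ : ∀ a, ‖φ a‖ = ‖a‖)
    (κ : S →⋆ₐ[ℂ] Q) (k : A →⋆ₐ[ℂ] S) (hκ : ∀ a, κ (k a) = c (φ a))
    (jS : Z →⋆ₐ[ℂ] S) (hk : ∀ a z, Commute (k a) (jS z))
    (hcom : ∀ z s, Commute (c (j₁ z)) (κ s)) {G' : Type*} (K : Finset G') (τ : G' → Q →⋆ₐ[ℂ] Q)
    (hτ₁ : ∀ g ∈ K, ∀ z, τ g (c (j₁ z)) = c (j₁ z)) (hτ₂ : ∀ g ∈ K, ∀ z, τ g (κ (jS z)) = κ (jS z))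
    (b : B) (ε : ℝ) (hε : 0 < ε) :
    ∃ U ∈ unitary Q, (∀ a, Commute (c (φ a)) U) ∧ (∀ g ∈ K, τ g U = U) ∧
      ∃ y : S, ‖U * c b * star U - κ y‖ < ε := by
  classical
  let σ₁ : Z →⋆ₐ[ℂ] Q := c.comp j₁
  let σ₂ : Z →⋆ₐ[ℂ] Q := κ.comp jS
  have hσ₁ : Function.Injective σ₁ := RingHom.injective (σ₁ : Z →+* Q)
  obtain ⟨T, _, i₀, j₀, hT, hflip⟩ := hf
  have hσcom : ∀ z z', Commute (σ₁ z) (σ₂ z') := fun z z' => hcom z (jS z')
  obtain ⟨Ψ, hΨ1, hΨ2, hΨ3⟩ := exists_hom_of_nuclear hn i₀ j₀ hT.toIsTensorCompletion σ₁ σ₂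
    hσcom hσ₁
  -- Ψ commutes with A
  have hΨA : ∀ a t, Commute (c (φ a)) (Ψ t) := by
    intro a t
    have hcl : IsClosed {x : Q | c (φ a) * x = x * c (φ a)} :=
      isClosed_eq (continuous_const_mul _) (continuous_mul_const _)
    refine closure_minimal ?_ hcl (hΨ3 t)
    rintro _ ⟨x, rfl⟩
    change Commute (c (φ a)) _
    induction x with
    | zero => rw [map_zero]; exact Commute.zero_right _
    | add x y hx hy => rw [map_add]; exact hx.add_right hy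
    | tmul z w =>
      rw [tensorMap_tmul]
      refine Commute.mul_right ?_ ?_
      · change Commute (c (φ a)) (c (j₁ z))
        exact (hB.comm a z).map c
      · change Commute (c (φ a)) (κ (jS w))
        rw [← hκ]
        exact (hk a w).map κ
  -- the image of Ψ is fixed
  have hΨτ : ∀ g ∈ K, ∀ t, τ g (Ψ t) = Ψ t := by
    intro g hg t
    have hcl : IsClosed {x : Q | τ g x = x} :=
      isClosed_eq (continuous_hom (τ g)) continuous_id
    refine closure_minimal ?_ hcl (hΨ3 t)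
    rintro _ ⟨x, rfl⟩
    change τ g _ = _
    induction x with
    | zero => rw [map_zero, map_zero]
    | add x y hx hy => rw [map_add, map_add, hx, hy]
    | tmul z w =>
      rw [tensorMap_tmul, map_mul]
      change τ g (c (j₁ z)) * τ g (κ (jS w)) = c (j₁ z) * κ (jS w)
      rw [hτ₁ g hg, hτ₂ g hg]
  -- approximate conjugation of elementary elements
  have key : ∀ (x : A ⊗[ℂ] Z) (δ : ℝ), 0 < δ → ∃ (G : Finset Z) (η : ℝ), 0 < η ∧
      ∀ u ∈ unitary T, (∀ z ∈ G, ‖u * i₀ z * star u - j₀ z‖ < η) →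
        ∃ y : S, ‖Ψ u * c (tensorMap φ j₁ hB.comm x) * star (Ψ u) - κ y‖ < δ := by
    intro x
    induction x with
    | zero =>
      intro δ hδ
      refine ⟨∅, 1, one_pos, fun u hu _ => ⟨0, ?_⟩⟩
      rw [map_zero, map_zero, map_zero, mul_zero, zero_mul, sub_zero, norm_zero]
      exact hδ
    | add x y hx hy =>
      intro δ hδ
      obtain ⟨G₁, η₁, hη₁, h1⟩ := hx (δ / 2) (half_pos hδ)
      obtain ⟨G₂, η₂, hη₂, h2⟩ := hy (δ / 2) (half_pos hδ)
      refine ⟨G₁ ∪ G₂, min η₁ η₂, lt_min hη₁ hη₂, fun u hu hG => ?_⟩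
      obtain ⟨y₁, hy₁⟩ := h1 u hu fun z hz =>
        (hG z (Finset.mem_union_left _ hz)).trans_le (min_le_left _ _)
      obtain ⟨y₂, hy₂⟩ := h2 u hu fun z hz =>
        (hG z (Finset.mem_union_right _ hz)).trans_le (min_le_right _ _)
      refine ⟨y₁ + y₂, ?_⟩
      have h3 : Ψ u * c (tensorMap φ j₁ hB.comm (x + y)) * star (Ψ u) - κ (y₁ + y₂) =
          (Ψ u * c (tensorMap φ j₁ hB.comm x) * star (Ψ u) - κ y₁) +
            (Ψ u * c (tensorMap φ j₁ hB.comm y) * star (Ψ u) - κ y₂) := by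
        rw [map_add, map_add, map_add]
        noncomm_ring
      rw [h3]
      refine (norm_add_le _ _).trans_lt ?_
      linarith
    | tmul a z =>
      intro δ hδ
      refine ⟨{z}, δ / (‖a‖ + 1), by positivity, fun u hu hG => ?_⟩
      refine ⟨k a * jS z, ?_⟩
      have h3 : Ψ u * c (tensorMap φ j₁ hB.comm (a ⊗ₜ z)) * star (Ψ u) - κ (k a * jS z) =
          c (φ a) * Ψ (u * i₀ z * star u - j₀ z) := by
        rw [tensorMap_tmul, map_mul c, ← mul_assoc, ← (hΨA a u).eq, map_mul κ, hκ, map_sub,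
          map_mul Ψ, map_mul Ψ, map_star, hΨ1, hΨ2]
        change c (φ a) * Ψ u * c (j₁ z) * star (Ψ u) - c (φ a) * κ (jS z) = c (φ a) *
            (Ψ u * c (j₁ z) * star (Ψ u) - κ (jS z))
        noncomm_ring
      rw [h3]
      refine (norm_mul_le _ _).trans_lt ?_
      have h4 : ‖Ψ (u * i₀ z * star u - j₀ z)‖ ≤ ‖u * i₀ z * star u - j₀ z‖ :=
        NonUnitalStarAlgHom.norm_apply_le Ψ _
      have h5 := hG z (Finset.mem_singleton_self z)
      rw [hc, hφ]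
      calc ‖a‖ * ‖Ψ (u * i₀ z * star u - j₀ z)‖ ≤ ‖a‖ * (δ / (‖a‖ + 1)) :=
            mul_le_mul_of_nonneg_left (h4.trans h5.le) (norm_nonneg _)
        _ < (‖a‖ + 1) * (δ / (‖a‖ + 1)) := by
            refine mul_lt_mul_of_pos_right (lt_add_one _) (by positivity)
        _ = δ := by field_simp
  -- approximate b
  obtain ⟨_, ⟨x, rfl⟩, hx⟩ := Metric.mem_closure_iff.1 (hB.denseRange b) (ε / 2) (half_pos hε)
  obtain ⟨G, η, hη, hG⟩ := key x (ε / 2) (half_pos hε)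
  obtain ⟨u, hu, hu'⟩ := hflip G η hη
  obtain ⟨y, hy⟩ := hG u hu hu'
  have hu1 : Ψ u ∈ unitary Q := map_mem_unitary Ψ hu
  refine ⟨Ψ u, hu1, fun a => hΨA a u, fun g hg => hΨτ g hg u, y, ?_⟩
  have h3 : Ψ u * c b * star (Ψ u) - κ y =
      Ψ u * c (b - tensorMap φ j₁ hB.comm x) * star (Ψ u) +
      (Ψ u * c (tensorMap φ j₁ hB.comm x) * star (Ψ u) - κ y) := by
    rw [map_sub]
    noncomm_ring
  rw [h3]
  refine (norm_add_le _ _).trans_lt ?_
  rw [norm_unitary_conj _ hu1, hc, ← dist_eq_norm]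
  linarith

/-- Passing from `B_ω` to `B`. -/
theorem transfer_lift_fix {A B : Type*} [CStarAlgebra A] [CStarAlgebra B] (φ : A →⋆ₐ[ℂ] B)
    (κ : SeqAlg A ω →⋆ₐ[ℂ] SeqAlg B ω) (hκ : ∀ a, κ (cls ω a) = cls ω (mapSeq φ a))
    (U : SeqAlg B ω) (hU : U ∈ unitary (SeqAlg B ω))
    (hUA : ∀ a, Commute (constSeq B ω (φ a)) U) {G' : Type*} (K : Finset G')
    (β : G' → B →⋆ₐ[ℂ] B) (hUK : ∀ g ∈ K, seqMap (β g) ω U = U)
    (b : B) (ε : ℝ) (hε : 0 < ε) (y : SeqAlg A ω)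
    (hy : ‖U * constSeq B ω b * star U - κ y‖ < ε) (F : Finset A) :
    ∃ v ∈ unitary B, (∀ a ∈ F, ‖v * φ a - φ a * v‖ < ε) ∧ (∀ g ∈ K, ‖β g v - v‖ < ε) ∧
      (∃ a, ‖star v * b * v - φ a‖ < ε) := by
  obtain ⟨v, hv, rfl⟩ := exists_unitary_lift U hU
  obtain ⟨a, rfl⟩ := Ideal.Quotient.mk_surjective y
  rw [hκ, constSeq_apply, star_cls, ← map_mul, ← map_mul, ← map_sub] at hy
  have h1 := (tendsto_norm_cls (ω := ω) (v * BoundedContinuousFunction.const ℕ b * star v -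
    mapSeq φ a)).eventually (gt_mem_nhds hy)
  have h2 : ∀ᶠ n in (ω : Filter ℕ), ∀ c ∈ F, ‖φ c * v n - v n * φ c‖ < ε := by
    rw [Filter.eventually_all_finset]
    intro c _
    have h3 := hUA c
    rw [constSeq_apply, commute_iff_eq, ← map_mul, ← map_mul, cls_eq_cls] at h3
    exact h3.eventually (gt_mem_nhds hε)
  have h2' : ∀ᶠ n in (ω : Filter ℕ), ∀ g ∈ K, ‖β g (v n) - v n‖ < ε := by
    rw [Filter.eventually_all_finset]
    intro g hg
    have h3 := hUK g hg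
    rw [seqMap_cls, cls_eq_cls] at h3
    exact h3.eventually (gt_mem_nhds hε)
  obtain ⟨n, ⟨hn1, hn2⟩, hn3⟩ := ((h1.and h2).and h2').exists
  refine ⟨star (v n), Unitary.star_mem (hv n), fun c hc => ?_, fun g hg => ?_, ⟨a n, ?_⟩⟩
  · have h4 : star (v n) * φ c - φ c * star (v n) =
        star (v n) * (φ c * v n - v n * φ c) * star (v n) := by
      have h5 : star (v n) * v n = 1 := Unitary.star_mul_self_of_mem (hv n)
      have h6 : v n * star (v n) = 1 := Unitary.mul_star_self_of_mem (hv n)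
      calc star (v n) * φ c - φ c * star (v n) = star (v n) * φ c * 1 - 1 * φ c * star (v n) := by
            rw [mul_one, one_mul]
        _ = star (v n) * φ c * (v n * star (v n)) - (star (v n) * v n) * φ c * star (v n) := by
            rw [h5, h6]
        _ = _ := by noncomm_ring
    rw [h4, CStarRing.norm_mul_mem_unitary _ (Unitary.star_mem (hv n)),
      CStarRing.norm_mem_unitary_mul _ (Unitary.star_mem (hv n))]
    exact hn2 c hc
  · rw [map_star, ← star_sub, norm_star]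
    exact hn3 g hg
  · rw [star_star]
    exact hn1

/-- As `transfer` in P101/JSTransfer.lean, with approximately fixed unitaries: in `transfer_abs`
the unitary is `Ψ u`, which lies in the closure of the algebra generated by `c (j₁ z)` and
`κ (jS z)`, and these are fixed by the maps induced by `β g`, `g ∈ K`. -/
theorem transfer_fix {B : Type u} [CStarAlgebra B] [Nontrivial B] (hs : IsSimpleRing Z)
    (hn : IsNuclear Z) (hf : HasApproxInnerHalfFlip Z)
    (φ : A →⋆ₐ[ℂ] B) (j₁ : Z →⋆ₐ[ℂ] B) (hB : IsTensorCompletion φ j₁)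
    (hφ : ∀ a, ‖φ a‖ = ‖a‖) {G : Type*} (K : Finset G)
    (α : G → A →⋆ₐ[ℂ] A) (β : G → B →⋆ₐ[ℂ] B)
    (hβφ : ∀ g a, β g (φ a) = φ (α g a)) (hβj : ∀ g z, β g (j₁ z) = j₁ z)
    (jS : Z →⋆ₐ[ℂ] SeqAlg A ω) (hk : ∀ a z, Commute (constSeq A ω a) (jS z))
    (hfix : ∀ g ∈ K, ∀ z, seqMap (α g) ω (jS z) = jS z)
    (F : Finset A) (b : B) (ε : ℝ) (hε : 0 < ε) :
    ∃ v ∈ unitary B, (∀ a ∈ F, ‖v * φ a - φ a * v‖ < ε) ∧ (∀ g ∈ K, ‖β g v - v‖ < ε) ∧
      (∃ a, ‖star v * b * v - φ a‖ < ε) := by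
  obtain ⟨κ, hκ⟩ := exists_seqMap φ ω
  have hnt : Nontrivial (SeqAlg B ω) := (constSeq_injective (B := B) (ω := ω)).nontrivial
  have hcom : ∀ z x, Commute (constSeq B ω (j₁ z)) (κ x) := by
    intro z x
    obtain ⟨a, rfl⟩ := Ideal.Quotient.mk_surjective x
    rw [hκ, constSeq_apply, commute_iff_eq, ← map_mul, ← map_mul]
    congr 1
    ext n : 1
    exact (hB.comm (a n) z).symm.eq
  have hκconst : ∀ a, κ (constSeq A ω a) = constSeq B ω (φ a) := by
    intro a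
    rw [constSeq_apply, hκ]
    rfl
  have hκβ : ∀ g x, seqMap (β g) ω (κ x) = κ (seqMap (α g) ω x) := by
    intro g x
    obtain ⟨a, rfl⟩ := Ideal.Quotient.mk_surjective x
    rw [hκ, seqMap_cls, seqMap_cls, hκ]
    congr 1
    ext n : 1
    exact hβφ g (a n)
  obtain ⟨U, hU, hUA, hUK, y, hy⟩ := transfer_abs_fix hs hn hf φ j₁ hB (constSeq B ω)
    norm_constSeq hφ κ (constSeq A ω) hκconst jS hk hcom K (fun g => seqMap (β g) ω)
    (fun g _ z => by rw [seqMap_const, hβj]) (fun g hg z => by rw [hκβ, hfix g hg]) b ε hε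
  exact transfer_lift_fix φ κ hκ U hU hUA K β hUK b ε hε y hy F

end Vale.Agent.P095
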