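import Vale.Agent.P095.ZStable
import Vale.Agent.P095.TransferFix
import Vale.Agent.P095.EqIntertwine
import Vale.Agent.P095.FixLimit
import Vale.Agent.P095.NoCharFix
import Vale.Agent.P095.FixCopies
import Vale.Agent.P101.LimitChar

/-! # [E8] actions of locally finite groups are equivariantly `Z`-stable -/

open Filter Topology TopologicalSpace
open scoped TensorProduct

noncomputable section

universe u v

namespace Vale.Agent.P095

open Vale.Agent.P101

/-- Homomorphisms out of a tensor product which agree on the two factors are equal. -/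
theorem tensor_hom_ext {A Z T Q : Type u} [CStarAlgebra A] [CStarAlgebra Z] [CStarAlgebra T]
    [CStarAlgebra Q] {i : A →⋆ₐ[ℂ] T} {j : Z →⋆ₐ[ℂ] T} (h : IsTensorCompletion i j)
    (Ψ Φ : T →⋆ₐ[ℂ] Q) (h1 : ∀ a, Ψ (i a) = Φ (i a)) (h2 : ∀ z, Ψ (j z) = Φ (j z)) (t : T) :
    Ψ t = Φ t := by
  have hcl : IsClosed {t : T | Ψ t = Φ t} := isClosed_eq (continuous_hom Ψ) (continuous_hom Φ)
  refine closure_minimal ?_ hcl (h.denseRange t)
  rintro _ ⟨x, rfl⟩
  change Ψ (tensorMap i j h.comm x) = Φ (tensorMap i j h.comm x)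
  induction x with
  | zero => rw [map_zero, map_zero, map_zero]
  | add x y hx hy => rw [map_add, map_add, map_add, hx, hy]
  | tmul a z => rw [tensorMap_tmul, map_mul, map_mul, h1, h2]

theorem tensor_left_injective {A Z T : Type u} [CStarAlgebra A] [CStarAlgebra Z] [CStarAlgebra T]
    [Nontrivial Z] {i : A →⋆ₐ[ℂ] T} {j : Z →⋆ₐ[ℂ] T} (h : IsTensorCompletion i j) :
    Function.Injective i := by
  intro a b hab
  have h1 : tensorMap i j h.comm (a ⊗ₜ 1) = tensorMap i j h.comm (b ⊗ₜ 1) := by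
    rw [tensorMap_left, tensorMap_left, hab]
  have h2 := h.injective h1
  exact Algebra.TensorProduct.includeLeft_injective (R := ℂ) (S := ℂ) (A := A) (B := Z)
    (FaithfulSMul.algebraMap_injective ℂ Z) h2

/-- The action `α ⊗ id_Z`. -/
theorem exists_tensor_action {G : Type v} [Group G] {A T Z : Type u} [CStarAlgebra A]
    [CStarAlgebra T] [CStarAlgebra Z] (hZ : IsJiangSu Z) (i : Hom A T) (j : Hom Z T)
    (h : IsMinTensor i j) (α : Action G A) :
    ∃ β : Action G T, IsTensorAction i j α β := by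
  have hs := hZ.simple
  have hT := h.isTensorCompletion
  have hnt : Nontrivial Z := inferInstance
  have hi : Function.Injective i := tensor_left_injective hT
  have key : ∀ g : G, ∃ Ψ : T →⋆ₐ[ℂ] T, (∀ a, Ψ (i a) = i (α g a)) ∧ (∀ z, Ψ (j z) = j z) := by
    intro g
    obtain ⟨Ψ, h1, h2, -⟩ := exists_hom_of_nuclear hZ.isNuclear i j hT
      (i.comp ((α g : A ≃⋆ₐ[ℂ] A) : A →⋆ₐ[ℂ] A)) j (fun a z => hT.comm (α g a) z)
      (fun a b hab => (α g).injective (hi hab))
    exact ⟨Ψ, h1, h2⟩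
  choose Ψ h1 h2 using key
  have hone : ∀ t, Ψ 1 t = t := fun t =>
    tensor_hom_ext hT (Ψ 1) (StarAlgHom.id ℂ T) (fun a => by rw [h1, map_one]; rfl)
      (fun z => by rw [h2]; rfl) t
  have hmul : ∀ g k t, Ψ (g * k) t = Ψ g (Ψ k t) := fun g k t =>
    tensor_hom_ext hT (Ψ (g * k)) ((Ψ g).comp (Ψ k))
      (fun a => by
        change Ψ (g * k) (i a) = Ψ g (Ψ k (i a))
        rw [h1, h1, h1, map_mul]; rfl)
      (fun z => by
        change Ψ (g * k) (j z) = Ψ g (Ψ k (j z))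
        rw [h2, h2, h2]) t
  let e : G → (T ≃⋆ₐ[ℂ] T) := fun g => StarAlgEquiv.ofBijective (Ψ g) (by
    constructor
    · intro x y hxy
      have h3 := congrArg (Ψ g⁻¹) hxy
      rw [← hmul, ← hmul, inv_mul_cancel, hone, hone] at h3
      exact h3
    · intro y
      exact ⟨Ψ g⁻¹ y, by rw [← hmul, mul_inv_cancel, hone]⟩)
  have he : ∀ g t, e g t = Ψ g t := fun g t => rfl
  refine ⟨{ toFun := e, map_one' := ?_, map_mul' := ?_ }, ?_⟩
  · ext t
    exact hone t
  · intro g k
    ext t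
    exact hmul g k t
  · intro g
    exact ⟨fun a => h1 g a, fun z => h2 g z⟩

/-- A fixed central copy of `Z` for a finite group. -/
theorem exists_fixed_hom {H : Type v} [Group H] [Finite H] {A Z : Type u} [CStarAlgebra A]
    [CStarAlgebra Z] [SeparableSpace A] (hZ : IsJiangSu Z) (hssa : IsSSA Z)
    (hAZ : TensorAbsorbs A Z) (ω : Ultrafilter ℕ) (hω : (ω : Filter ℕ) ≤ cofinite)
    (α : H → A →⋆ₐ[ℂ] A) (hα : IsAct α) :
    ∃ θ : Z →⋆ₐ[ℂ] centralSeq A ω, ∀ z g, seqMap (α g) ω (θ z) = θ z := by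
  have hsep := hZ.separable
  have hchar := noChar_centralSeq hZ hssa hAZ ω hω
  have hcp := hasEqCopies_cenAct α hα ω hω
  have hσ := isAct_cenAct α hα ω
  have hchar' := noChar_fix (cenAct α hα ω) hσ hcp hchar
  have hcp' := hasCopies_fix (cenAct α hα ω) hcp
  obtain ⟨D, hD, hdense, hpq⟩ := hZ.limit
  choose p q hp hq hc he using fun n => exists_equiv_of_isPrimeDimDrop (D n) (hpq n)
  have h1 : ∀ n, ∃ ψ : D n →⋆ₐ[ℂ] centralSeq A ω, (∀ x, ‖ψ x‖ ≤ ‖(x : Z)‖) ∧
      ∀ x g, seqMap (α g) ω (ψ x) = ψ x := by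
    intro n
    obtain ⟨e⟩ := he n
    have hp' := hp n
    have hq' := hq n
    obtain ⟨φ⟩ := exists_dimDrop_hom hcp' hchar' (p n) (q n) (by omega) (by omega) (hc n)
    obtain ⟨ψ, hψ⟩ := exists_hom_of_equiv (D n) e φ
    refine ⟨(fixAlg (cenAct α hα ω)).subtype.comp ψ, fun x => hψ x, fun x g => ?_⟩
    have h2 := (ψ x).2 g
    have h3 := congrArg Subtype.val h2
    exact h3
  choose ψ hψ hfix using h1
  exact exists_fixed_hom_of_limit hω hD hdense α ψ hψ hfix

theorem main (A Z : Type u) [CStarAlgebra A] [Nontrivial A] [SeparableSpace A] [CStarAlgebra Z]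
    (hZ : IsJiangSu Z) (hssa : IsSSA Z) (hAZ : TensorAbsorbs A Z)
    (G : Type v) [Group G] [Countable G]
    (hG : ∀ K : Finset G, (Subgroup.closure (K : Set G) : Set G).Finite) (α : Action G A) :
    EquivariantlyStable α Z := by
  classical
  have hAZ' := hAZ
  obtain ⟨T, _, i, j, hT, ⟨e⟩⟩ := hAZ'
  obtain ⟨β, hβ⟩ := exists_tensor_action hZ i j hT α
  have hs := hZ.simple
  have hntZ : Nontrivial Z := inferInstance
  have hTc := hT.isTensorCompletion
  have hinj : Function.Injective i := tensor_left_injective hTc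
  have hntT : Nontrivial T := hinj.nontrivial
  have hsepT : SeparableSpace T := by
    have hcont : Continuous (e : A → T) :=
      continuous_hom ((e : A ≃⋆ₐ[ℂ] T) : A →⋆ₐ[ℂ] T)
    exact e.surjective.denseRange.separableSpace hcont
  let αh : G → A →⋆ₐ[ℂ] A := fun g => ((α g : A ≃⋆ₐ[ℂ] A) : A →⋆ₐ[ℂ] A)
  let βh : G → T →⋆ₐ[ℂ] T := fun g => ((β g : T ≃⋆ₐ[ℂ] T) : T →⋆ₐ[ℂ] T)
  have hαh : IsAct αh := ⟨fun x => by change α 1 x = x; rw [map_one]; rfl,
    fun g h x => by change α (g * h) x = α g (α h x); rw [map_mul]; rfl⟩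
  have hβh : IsAct βh := ⟨fun x => by change β 1 x = x; rw [map_one]; rfl,
    fun g h x => by change β (g * h) x = β g (β h x); rw [map_mul]; rfl⟩
  let ω : Ultrafilter ℕ := Filter.hyperfilter ℕ
  have hω : (ω : Filter ℕ) ≤ cofinite := Filter.hyperfilter_le_cofinite
  obtain ⟨Φ, w, hw1, hw2, hw3⟩ := exists_cocycle_intertwining i hinj αh βh hβh
    (fun g a => (hβ g).1 a) (by
      intro F K b ε hε
      let H : Subgroup G := Subgroup.closure (K : Set G)
      have hfin : Finite H := (hG K).to_subtype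
      let αH : H → A →⋆ₐ[ℂ] A := fun g => αh g
      have hαH : IsAct αH := ⟨fun x => hαh.one x, fun g h x => hαh.mul g h x⟩
      obtain ⟨θ, hθ⟩ := exists_fixed_hom hZ hssa hAZ ω hω αH hαH
      exact transfer_fix hs hZ.isNuclear hZ.hasApproxInnerHalfFlip i j hTc
        (fun a => NonUnitalStarAlgHom.norm_map i hinj a) K αh βh (fun g a => (hβ g).1 a)
        (fun g z => (hβ g).2 z) ((centralSeq A ω).subtype.comp θ)
        (fun a z => mem_centralSeq.1 (θ z).2 a)
        (fun g hg z => hθ z ⟨g, Subgroup.subset_closure hg⟩) F b ε hε)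
  exact ⟨T, _, i, j, β, hT, hβ, Φ, w, ⟨hw1, hw2⟩, hw3⟩

end Vale.Agent.P095
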