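import Vale.Agent.P095.FixCopies
import Vale.Agent.P095.NoCharFix

/-! # [Q4] a normal subgroup of finite index -/

noncomputable section

universe u

namespace Vale.Agent.P095

open Vale.Agent.P101

section

variable {L : Type*} [Group L] {E : Type u} [CStarAlgebra E] (σ : L → E →⋆ₐ[ℂ] E)
  (hσ : IsAct σ) (N : Subgroup L)

/-- The fixed-point algebra of a subgroup. -/
def fixSub : StarSubalgebra ℂ E := fixAlg (fun n : N => σ n)

theorem mem_fixSub {x : E} : x ∈ fixSub σ N ↔ ∀ n ∈ N, σ n x = x :=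
  ⟨fun h n hn => h ⟨n, hn⟩, fun h n => h n n.2⟩

instance fixSub.isClosed : IsClosed ((fixSub σ N : StarSubalgebra ℂ E) : Set E) :=
  fixAlg.isClosed _

instance fixSub.instCStarAlgebra : CStarAlgebra (fixSub σ N) :=
  StarSubalgebra.cstarAlgebra (fixSub σ N)

include hσ in
theorem act_congr {x : E} (hx : x ∈ fixSub σ N) {g h : L} (hgh : g⁻¹ * h ∈ N) :
    σ g x = σ h x := by
  rw [mem_fixSub] at hx
  have h1 := hx _ hgh
  calc σ g x = σ g (σ (g⁻¹ * h) x) := by rw [h1]
    _ = σ h x := by rw [← hσ.mul, mul_inv_cancel_left]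

variable [N.Normal]

include hσ in
theorem act_mem {x : E} (hx : x ∈ fixSub σ N) (g : L) : σ g x ∈ fixSub σ N := by
  rw [mem_fixSub]
  intro n hn
  rw [← hσ.mul]
  refine act_congr σ hσ N hx ?_
  have h1 : (n * g)⁻¹ * g = g⁻¹ * n⁻¹ * (g⁻¹)⁻¹ := by group
  rw [h1]
  exact Subgroup.Normal.conj_mem inferInstance _ (inv_mem hn) g⁻¹

/-- The action of the quotient group. -/
def quotAct (q : L ⧸ N) : fixSub σ N →⋆ₐ[ℂ] fixSub σ N :=
  ((σ q.out).comp (fixSub σ N).subtype).codRestrict _ (fun x => act_mem σ hσ N x.2 q.out)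

theorem coe_quotAct (g : L) (x : fixSub σ N) :
    (quotAct σ hσ N (g : L ⧸ N) x : E) = σ g x := by
  change σ ((g : L ⧸ N).out) x = σ g x
  refine act_congr σ hσ N x.2 ?_
  rw [← QuotientGroup.eq]
  exact QuotientGroup.out_eq' _

theorem isAct_quotAct : IsAct (quotAct σ hσ N) where
  one := by
    intro x
    apply Subtype.ext
    have h1 : ((1 : L) : L ⧸ N) = 1 := rfl
    rw [← h1, coe_quotAct]
    exact hσ.one _
  mul := by
    intro p q x
    induction p using QuotientGroup.induction_on with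
    | H g =>
      induction q using QuotientGroup.induction_on with
      | H h =>
        apply Subtype.ext
        rw [← QuotientGroup.mk_mul, coe_quotAct, coe_quotAct, coe_quotAct]
        exact hσ.mul g h _

theorem hasEqCopies_quotAct (hcp : HasEqCopies σ) : HasEqCopies (quotAct σ hσ N) := by
  intro S hS hSinv
  let S' : Set E := (fun x : fixSub σ N => (x : E)) '' S
  have hS' : S'.Finite := hS.image _
  have hS'inv : ∀ g, ∀ x ∈ S', σ g x ∈ S' := by
    rintro g _ ⟨x, hx, rfl⟩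
    exact ⟨_, hSinv (g : L ⧸ N) x hx, coe_quotAct σ hσ N g x⟩
  obtain ⟨ρ, h1, h2, h3⟩ := hcp S' hS' hS'inv
  have hsub : StarAlgebra.adjoin ℂ S' ≤ fixSub σ N := StarAlgebra.adjoin_le (by
    rintro _ ⟨x, _, rfl⟩
    exact x.2)
  have hρ : ∀ j x, ρ j x ∈ fixSub σ N := by
    intro j x
    rw [mem_fixSub]
    intro n hn
    have hx : (x : E) = σ n (x : E) := ((mem_fixSub σ N).1 (hsub x.2) n hn).symm
    exact (h3 n j x x hx).symm
  have hle : (StarAlgebra.adjoin ℂ S).map (fixSub σ N).subtype ≤ StarAlgebra.adjoin ℂ S' := by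
    rw [StarSubalgebra.map_le_iff_le_comap]
    refine StarAlgebra.adjoin_le fun x hx => ?_
    exact StarAlgebra.subset_adjoin ℂ S' ⟨x, hx, rfl⟩
  let j : StarAlgebra.adjoin ℂ S →⋆ₐ[ℂ] StarAlgebra.adjoin ℂ S' :=
    (((fixSub σ N).subtype).comp (StarAlgebra.adjoin ℂ S).subtype).codRestrict _
      (fun x => hle ⟨x, x.2, rfl⟩)
  have hj : ∀ x, ((j x : StarAlgebra.adjoin ℂ S') : E) = ((x : fixSub σ N) : E) := fun x => rfl
  refine ⟨fun k => ((ρ k).comp j).codRestrict (fixSub σ N) (fun x => hρ k _), ?_, ?_, ?_⟩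
  · intro k l hkl x y
    exact Subtype.ext (h1 k l hkl (j x) (j y))
  · intro k x
    exact h2 k (j x)
  · intro q k x y hxy
    induction q using QuotientGroup.induction_on with
    | H g =>
      apply Subtype.ext
      rw [coe_quotAct]
      refine h3 g k (j x) (j y) ?_
      rw [hj, hj, hxy, coe_quotAct]

include hσ in
/-- If the fixed points of a normal subgroup of finite index have no characters then neither
have the fixed points of the whole group. -/
theorem noChar_of_finiteIndex [Finite (L ⧸ N)] (hcp : HasEqCopies σ)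
    (h : IsEmpty (fixSub σ N →⋆ₐ[ℂ] ℂ)) : IsEmpty (fixAlg σ →⋆ₐ[ℂ] ℂ) := by
  have h1 := noChar_fix (quotAct σ hσ N) (isAct_quotAct σ hσ N)
    (hasEqCopies_quotAct σ hσ N hcp) h
  refine ⟨fun χ => h1.false (χ.comp ?_)⟩
  refine (((fixSub σ N).subtype).comp (fixAlg (quotAct σ hσ N)).subtype).codRestrict (fixAlg σ)
    (fun x g => ?_)
  have h2 := congrArg Subtype.val (x.2 (g : L ⧸ N))
  rw [coe_quotAct] at h2
  exact h2

end

end Vale.Agent.P095
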