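import Vale.Agent.P095.Basic
import Vale.Agent.P101.JSTransfer

/-! # The induced action on the central sequence algebra, equivariant copies -/

open Filter Topology TopologicalSpace BoundedContinuousFunction

noncomputable section

namespace Vale.Agent.P095

open Vale.Agent.P101

variable {G : Type*} [Group G] {A : Type*} [CStarAlgebra A]

/-- The map of `A_ω` induced by a homomorphism. -/
def seqMap (φ : A →⋆ₐ[ℂ] A) (ω : Ultrafilter ℕ) : SeqAlg A ω →⋆ₐ[ℂ] SeqAlg A ω :=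
  (exists_seqMap φ ω).choose

theorem seqMap_cls (φ : A →⋆ₐ[ℂ] A) (ω : Ultrafilter ℕ) (a : ℕ →ᵇ A) :
    seqMap φ ω (cls ω a) = cls ω (mapSeq φ a) :=
  (exists_seqMap φ ω).choose_spec a

theorem seqMap_const (φ : A →⋆ₐ[ℂ] A) (ω : Ultrafilter ℕ) (a : A) :
    seqMap φ ω (constSeq A ω a) = constSeq A ω (φ a) := by
  rw [constSeq_apply, seqMap_cls]
  rfl

/-- A homomorphism with a right inverse maps central sequences to central sequences. -/
theorem seqMap_mem {α : G → A →⋆ₐ[ℂ] A} (hα : IsAct α) (ω : Ultrafilter ℕ) (g : G)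
    {x : SeqAlg A ω} (hx : x ∈ centralSeq A ω) : seqMap (α g) ω x ∈ centralSeq A ω := by
  rw [mem_centralSeq] at hx ⊢
  intro a
  have h1 : a = α g (α g⁻¹ a) := by rw [← hα.mul, mul_inv_cancel, hα.one]
  rw [h1, ← seqMap_const]
  exact (hx (α g⁻¹ a)).map (seqMap (α g) ω)

/-- The induced action on `F_ω(A)`. -/
def cenAct (α : G → A →⋆ₐ[ℂ] A) (hα : IsAct α) (ω : Ultrafilter ℕ) (g : G) :
    centralSeq A ω →⋆ₐ[ℂ] centralSeq A ω :=
  ((seqMap (α g) ω).comp (centralSeq A ω).subtype).codRestrict _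
    (fun x => seqMap_mem hα ω g x.2)

@[simp] theorem coe_cenAct (α : G → A →⋆ₐ[ℂ] A) (hα : IsAct α) (ω : Ultrafilter ℕ) (g : G)
    (x : centralSeq A ω) : (cenAct α hα ω g x : SeqAlg A ω) = seqMap (α g) ω x := rfl

theorem isAct_cenAct (α : G → A →⋆ₐ[ℂ] A) (hα : IsAct α) (ω : Ultrafilter ℕ) :
    IsAct (cenAct α hα ω) where
  one := by
    rintro ⟨x, hx⟩
    obtain ⟨a, rfl⟩ := Ideal.Quotient.mk_surjective x
    apply Subtype.ext
    rw [coe_cenAct, seqMap_cls]
    congr 1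
    ext n
    exact hα.one _
  mul := by
    rintro g h ⟨x, hx⟩
    obtain ⟨a, rfl⟩ := Ideal.Quotient.mk_surjective x
    apply Subtype.ext
    rw [coe_cenAct, coe_cenAct, coe_cenAct, seqMap_cls, seqMap_cls, seqMap_cls]
    congr 1
    ext n
    exact hα.mul g h _

theorem reindex_mapSeq (m : ℕ → ℕ) (φ : A →⋆ₐ[ℂ] A) (a : ℕ →ᵇ A) :
    reindex m A (mapSeq φ a) = mapSeq φ (reindex m A a) := by
  ext n
  rfl

/-- One equivariant copy of `adjoin S` in `F_ω(A)` commuting with a given countable set. -/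
theorem exists_eqCopy [Countable G] [SeparableSpace A] (α : G → A →⋆ₐ[ℂ] A) (hα : IsAct α)
    (ω : Ultrafilter ℕ) (hω : (ω : Filter ℕ) ≤ cofinite)
    (S : Set (centralSeq A ω)) (hS : S.Countable)
    (T : Set (centralSeq A ω)) (hT : T.Countable) :
    ∃ ψ : StarAlgebra.adjoin ℂ S →⋆ₐ[ℂ] centralSeq A ω,
      ((∀ x, ‖ψ x‖ ≤ ‖(x : centralSeq A ω)‖) ∧
      (∀ g (x y : StarAlgebra.adjoin ℂ S), (y : centralSeq A ω) = cenAct α hα ω g x →
        ψ y = cenAct α hα ω g (ψ x))) ∧ ∀ x, ∀ t ∈ T, Commute (ψ x) t := by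
  rw [Nat.cofinite_eq_atTop] at hω
  obtain ⟨l, hl⟩ : ∃ l : SeqAlg A ω → (ℕ →ᵇ A), ∀ x, cls ω (l x) = x :=
    ⟨fun x => (Ideal.Quotient.mk_surjective x).choose,
      fun x => (Ideal.Quotient.mk_surjective x).choose_spec⟩
  set S' : Set (ℕ →ᵇ A) := ⋃ g : G, (fun s : centralSeq A ω => mapSeq (α g) (l s)) '' S with hS'
  have hS'c : S'.Countable := Set.countable_iUnion fun g => hS.image _
  set D : StarSubalgebra ℂ (ℕ →ᵇ A) := StarAlgebra.adjoin ℂ S' with hD
  have hDinv : ∀ g : G, ∀ d ∈ D, mapSeq (α g) d ∈ D := by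
    intro g
    have h1 : D ≤ D.comap (mapSeq (α g)) := by
      rw [hD]
      refine StarAlgebra.adjoin_le ?_
      intro d hd
      rw [hS', Set.mem_iUnion] at hd
      obtain ⟨h, s, hs, rfl⟩ := hd
      change mapSeq (α g) (mapSeq (α h) (l s)) ∈ StarAlgebra.adjoin ℂ S'
      refine StarAlgebra.subset_adjoin ℂ _ ?_
      rw [hS', Set.mem_iUnion]
      refine ⟨g * h, s, hs, ?_⟩
      ext n
      exact hα.mul g h _
    exact fun d hd => h1 hd
  obtain ⟨X, hXD, hX, hDX⟩ := (isSeparable_adjoin hS'c).exists_countable_dense_subset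
  rw [← hD] at hXD hDX
  have hDF : D ≤ (centralSeq A ω).comap (clsHom A ω) := by
    rw [hD]
    refine StarAlgebra.adjoin_le ?_
    intro d hd
    rw [hS', Set.mem_iUnion] at hd
    obtain ⟨g, s, hs, rfl⟩ := hd
    change cls ω (mapSeq (α g) (l s)) ∈ centralSeq A ω
    rw [← seqMap_cls, hl]
    exact seqMap_mem hα ω g s.2
  obtain ⟨m, hm1, hm2, hm3⟩ := exists_reindex hω X hX (fun x hx => hDF (hXD hx))
    ((fun s : centralSeq A ω => l s) '' T) (hT.image _)
  have hcontcls : Continuous (clsHom A ω) :=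
    AddMonoidHomClass.continuous_of_bound (clsHom A ω) 1 fun a => by
      rw [one_mul]; exact norm_cls_le _
  have hcontre : Continuous (reindex m A) :=
    AddMonoidHomClass.continuous_of_bound (reindex m A) 1 fun a => by
      rw [one_mul]
      exact (BoundedContinuousFunction.norm_le (norm_nonneg _)).2 fun n => a.norm_coe_le_norm _
  let Φ : (ℕ →ᵇ A) →⋆ₐ[ℂ] SeqAlg A ω := (clsHom A ω).comp (reindex m A)
  have hΦ : Continuous Φ := hcontcls.comp hcontre
  have hΦeq : ∀ g d, Φ (mapSeq (α g) d) = seqMap (α g) ω (Φ d) := by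
    intro g d
    change cls ω (reindex m A (mapSeq (α g) d)) = seqMap (α g) ω (cls ω (reindex m A d))
    rw [seqMap_cls, reindex_mapSeq]
  have hΦn : ∀ d ∈ D, ‖Φ d‖ ≤ ‖clsHom A ω d‖ := by
    intro d hd
    have hcl : IsClosed {d | ‖Φ d‖ ≤ ‖clsHom A ω d‖} :=
      isClosed_le (continuous_norm.comp hΦ) (continuous_norm.comp hcontcls)
    exact closure_minimal (fun x hx => hm1 x hx) hcl (hDX hd)
  have hΦc : ∀ d ∈ D, ∀ t ∈ T, Φ d * t = t * Φ d := by
    intro d hd t ht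
    have hcl : IsClosed {d | Φ d * t = t * Φ d} :=
      isClosed_eq ((continuous_mul_const _).comp hΦ) ((continuous_const_mul _).comp hΦ)
    refine closure_minimal (fun x hx => ?_) hcl (hDX hd)
    have h1 := hm2 x hx _ ⟨t, ht, rfl⟩
    simp only [hl] at h1
    exact h1
  have hΦF : ∀ d ∈ D, Φ d ∈ centralSeq A ω := by
    intro d hd
    have hcl : IsClosed {d | Φ d ∈ centralSeq A ω} := centralSeq.isClosed.preimage hΦ
    exact closure_minimal (fun x hx => hm3 x hx) hcl (hDX hd)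
  let C : StarSubalgebra ℂ (SeqAlg A ω) := (StarAlgebra.adjoin ℂ S).map (centralSeq A ω).subtype
  have hCD : C ≤ D.map (clsHom A ω) := by
    rw [StarSubalgebra.map_le_iff_le_comap]
    refine StarAlgebra.adjoin_le ?_
    intro s hs
    refine ⟨mapSeq (α 1) (l s), StarAlgebra.subset_adjoin ℂ _ ?_, ?_⟩
    · rw [hS', Set.mem_iUnion]
      exact ⟨1, s, hs, rfl⟩
    · have h1 : mapSeq (α 1) (l s) = l s := by
        ext n
        exact hα.one _
      rw [h1]
      exact hl _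
  obtain ⟨ψ, hψ1, hψ2, hψ3⟩ := exists_hom_of_norm_le (clsHom A ω) Φ D hΦn C
    (fun c hc => subset_closure (hCD hc))
  have hψF : ∀ c : C, ψ c ∈ centralSeq A ω := by
    intro c
    refine closure_minimal ?_ (centralSeq.isClosed (A := A) (ω := ω)) (hψ3 c)
    rintro _ ⟨d, hd, rfl⟩
    exact hΦF d hd
  have hψc : ∀ c : C, ∀ t ∈ T, ψ c * t = t * ψ c := by
    intro c t ht
    have hcl : IsClosed {x : SeqAlg A ω | x * t = t * x} :=
      isClosed_eq (continuous_mul_const _) (continuous_const_mul _)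
    refine closure_minimal ?_ hcl (hψ3 c)
    rintro _ ⟨d, hd, rfl⟩
    exact hΦc d hd t ht
  have hψe : ∀ (g : G) (x y : C), (y : SeqAlg A ω) = seqMap (α g) ω x →
      ψ y = seqMap (α g) ω (ψ x) := by
    intro g x y hxy
    obtain ⟨d, hd, hdx⟩ := hCD x.2
    have h1 : (x : SeqAlg A ω) = clsHom A ω d := hdx.symm
    have h2 : (y : SeqAlg A ω) = clsHom A ω (mapSeq (α g) d) := by
      rw [hxy, h1]
      exact seqMap_cls _ _ _
    have h3 : ψ x = Φ d := by
      have h4 : clsHom A ω d ∈ C := h1 ▸ x.2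
      have h5 : x = ⟨clsHom A ω d, h4⟩ := Subtype.ext h1
      rw [h5]
      exact hψ2 d hd h4
    have h6 : ψ y = Φ (mapSeq (α g) d) := by
      have h4 : clsHom A ω (mapSeq (α g) d) ∈ C := h2 ▸ y.2
      have h5 : y = ⟨clsHom A ω (mapSeq (α g) d), h4⟩ := Subtype.ext h2
      rw [h5]
      exact hψ2 _ (hDinv g d hd) h4
    rw [h6, h3, hΦeq]
  let j : StarAlgebra.adjoin ℂ S →⋆ₐ[ℂ] C :=
    (((centralSeq A ω).subtype).comp (StarAlgebra.adjoin ℂ S).subtype).codRestrict C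
      (fun x => ⟨x, x.2, rfl⟩)
  refine ⟨(ψ.comp j).codRestrict (centralSeq A ω) (fun x => hψF _), ⟨?_, ?_⟩, ?_⟩
  · intro x
    exact hψ1 (j x)
  · intro g x y hxy
    apply Subtype.ext
    rw [coe_cenAct]
    refine hψe g (j x) (j y) ?_
    have h1 := congrArg (Subtype.val) hxy
    exact h1
  · intro x t ht
    exact Subtype.ext (hψc (j x) t ht)

/-- **[E2]** -/
theorem hasEqCopies_cenAct [Countable G] [SeparableSpace A] (α : G → A →⋆ₐ[ℂ] A) (hα : IsAct α)
    (ω : Ultrafilter ℕ) (hω : (ω : Filter ℕ) ≤ cofinite) : HasEqCopies (cenAct α hα ω) := by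
  classical
  intro S hS _hSinv
  let r : (StarAlgebra.adjoin ℂ S →⋆ₐ[ℂ] centralSeq A ω) →
      (StarAlgebra.adjoin ℂ S →⋆ₐ[ℂ] centralSeq A ω) → Prop :=
    fun σ ρ => ∀ x y, Commute (σ x) (ρ y)
  let P : (StarAlgebra.adjoin ℂ S →⋆ₐ[ℂ] centralSeq A ω) → Prop := fun ψ =>
    (∀ x, ‖ψ x‖ ≤ ‖(x : centralSeq A ω)‖) ∧
      (∀ g (x y : StarAlgebra.adjoin ℂ S), (y : centralSeq A ω) = cenAct α hα ω g x →
        ψ y = cenAct α hα ω g (ψ x))
  have hsymm : Std.Symm r := ⟨fun σ ρ h x y => (h y x).symm⟩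
  obtain ⟨f, hfP, hf⟩ := exists_seq_of_forall_finset_exists' P r (by
    intro s _
    obtain ⟨ψ, hψP, hψ⟩ := exists_eqCopy α hα ω hω S hS.countable
      (⋃ σ ∈ s, σ '' {x | (x : centralSeq A ω) ∈ S}) (by
        refine s.countable_toSet.biUnion fun σ _ => Set.Countable.image ?_ _
        exact hS.countable.preimage Subtype.coe_injective)
    refine ⟨ψ, hψP, fun σ hσ => commute_of_generators σ ψ fun t ht y => ?_⟩
    refine (hψ y _ ?_).symm
    simp only [Set.mem_iUnion]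
    exact ⟨σ, hσ, _, ht, rfl⟩)
  exact ⟨f, fun i j hij x y => hf hij x y, fun j x => (hfP j).1 x,
    fun g j x y h => (hfP j).2 g x y h⟩

end Vale.Agent.P095
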