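import Vale.Agent.P095.ZStable
import Vale.Agent.P095.SeqAct

/-! # [Q3] equivariantly stable actions have a fixed central copy of `Z` -/

open Filter Topology TopologicalSpace BoundedContinuousFunction
open scoped TensorProduct

noncomputable section

universe u v

namespace Vale.Agent.P095

open Vale.Agent.P101

theorem AC_tensor {A Z T : Type u} [CStarAlgebra A] [CStarAlgebra Z] [CStarAlgebra T]
    {i : Hom A T} {j : Hom Z T} (hT : IsMinTensor i j) {θ : ℕ → Z →⋆ₐ[ℂ] Z} (hθ : AC θ) :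
    AC (fun n => j.comp (θ n)) := by
  have hcomm : ∀ a b, i a * j b = j b * i a := hT.1.1
  refine AC_closed _ (Set.range (tmap i j)) hT.2.1 ?_
  rintro z _ ⟨(x : A ⊗[ℂ] Z), rfl⟩
  induction x with
  | zero => simp
  | add x y hx hy =>
    rw [map_add]
    have h1 := hx.add hy
    rw [add_zero] at h1
    refine squeeze_zero (fun n => norm_nonneg _) (fun n => ?_) h1
    refine le_trans (le_of_eq ?_) (norm_add_le _ _)
    congr 1
    noncomm_ring
  | tmul a b =>
    have h1 := (hθ z b).const_mul ‖i a‖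
    rw [mul_zero] at h1
    refine squeeze_zero (fun n => norm_nonneg _) (fun n => ?_) h1
    have e1 : tmap i j (a ⊗ₜ b) = i a * j b := rfl
    rw [e1]
    change ‖j (θ n z) * (i a * j b) - i a * j b * j (θ n z)‖ ≤ _
    have e2 : j (θ n z) * (i a * j b) - i a * j b * j (θ n z)
        = i a * j (θ n z * b - b * θ n z) := by
      rw [map_sub, map_mul, map_mul, ← mul_assoc, ← hcomm a (θ n z)]
      noncomm_ring
    rw [e2]
    exact (norm_mul_le _ _).trans (mul_le_mul_of_nonneg_left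
      (NonUnitalStarAlgHom.norm_apply_le j _) (norm_nonneg _))

/-- **[Q3]** -/
theorem exists_fixed_of_stable {G : Type v} [Group G] {A Z : Type u} [CStarAlgebra A]
    [CStarAlgebra Z] [SeparableSpace Z] (hssa : IsSSA Z) (α : Action G A)
    (h : EquivariantlyStable α Z) (ω : Ultrafilter ℕ) (hω : (ω : Filter ℕ) ≤ cofinite) :
    ∃ σ : Z →⋆ₐ[ℂ] centralSeq A ω,
      ∀ z g, seqMap ((α g : A ≃⋆ₐ[ℂ] A) : A →⋆ₐ[ℂ] A) ω (σ z) = σ z := by
  rw [Nat.cofinite_eq_atTop] at hω
  obtain ⟨θ, hθ⟩ := exists_AC_self hssa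
  obtain ⟨T, _, i, j, β, hT, hβ, Φ, u, ⟨hu, -⟩, hΦ⟩ := h
  have hTc := AC_tensor hT hθ
  let ρ : ℕ → Z →⋆ₐ[ℂ] A := fun n => (Φ.symm : T →⋆ₐ[ℂ] A).comp (j.comp (θ n))
  have hρ : ∀ n z, Φ (ρ n z) = j (θ n z) := fun n z => Φ.apply_symm_apply _
  have hAc : AC ρ := by
    intro z a
    refine squeeze_zero (fun n => norm_nonneg _) (fun n => ?_) (hTc z (Φ a))
    change ‖Φ.symm (j (θ n z)) * a - a * Φ.symm (j (θ n z))‖ ≤
      ‖j (θ n z) * Φ a - Φ a * j (θ n z)‖
    have e1 : Φ.symm (j (θ n z)) * a - a * Φ.symm (j (θ n z))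
        = (Φ.symm : T →⋆ₐ[ℂ] A) (j (θ n z) * Φ a - Φ a * j (θ n z)) := by
      change _ = Φ.symm (j (θ n z) * Φ a - Φ a * j (θ n z))
      rw [map_sub, map_mul, map_mul, Φ.symm_apply_apply]
    rw [e1]
    exact NonUnitalStarAlgHom.norm_apply_le _ _
  refine ⟨((clsHom A ω).comp (seqHom ρ)).codRestrict (centralSeq A ω) fun z => ?_, ?_⟩
  · rw [mem_centralSeq]
    intro b
    change cls ω (BoundedContinuousFunction.const ℕ b) * cls ω (seqHom ρ z)
      = cls ω (seqHom ρ z) * cls ω (BoundedContinuousFunction.const ℕ b)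
    rw [← map_mul, ← map_mul, cls_eq_cls]
    refine ((hAc z b).mono_left hω).congr fun n => ?_
    change ‖ρ n z * b - b * ρ n z‖ = ‖b * ρ n z - ρ n z * b‖
    exact norm_sub_rev _ _
  · intro z g
    change seqMap ((α g : A ≃⋆ₐ[ℂ] A) : A →⋆ₐ[ℂ] A) ω (cls ω (seqHom ρ z)) = cls ω (seqHom ρ z)
    rw [seqMap_cls, cls_eq_cls]
    refine squeeze_zero (fun n => norm_nonneg _) (fun n => ?_) ((hTc z (u g)).mono_left hω)
    change ‖α g (ρ n z) - ρ n z‖ ≤ ‖j (θ n z) * u g - u g * j (θ n z)‖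
    have hiso : ∀ x : A, ‖Φ x‖ = ‖x‖ := fun x =>
      NonUnitalStarAlgHom.norm_map (Φ : A →⋆ₐ[ℂ] T) Φ.injective x
    rw [← hiso, map_sub, hΦ, hρ, (hβ g).2]
    have h1 : u g * star (u g) = 1 := Unitary.mul_star_self_of_mem (hu g)
    have e1 : u g * j (θ n z) * star (u g) - j (θ n z)
        = -((j (θ n z) * u g - u g * j (θ n z)) * star (u g)) := by
      calc u g * j (θ n z) * star (u g) - j (θ n z)
          = u g * j (θ n z) * star (u g) - j (θ n z) * (u g * star (u g)) := by rw [h1, mul_one]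
        _ = _ := by noncomm_ring
    rw [e1, norm_neg, CStarRing.norm_mul_mem_unitary _ (Unitary.star_mem (hu g))]

end Vale.Agent.P095
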