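import Vale.Agent.P095.Main
import Vale.Agent.P095.Quot
import Vale.Agent.P095.StableHom

/-! # [Q4] permanence of equivariant `Z`-stability under extensions by locally finite groups -/

open Filter Topology TopologicalSpace
open scoped TensorProduct

noncomputable section

universe u v

namespace Vale.Agent.P095

open Vale.Agent.P101

/-- A fixed central copy of `Z` if the fixed-point algebra has no characters. -/
theorem exists_fixed_hom_of_noChar {H : Type v} [Group H] [Countable H] {A Z : Type u}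
    [CStarAlgebra A] [CStarAlgebra Z] [SeparableSpace A] (hZ : IsJiangSu Z)
    (ω : Ultrafilter ℕ) (hω : (ω : Filter ℕ) ≤ cofinite)
    (α : H → A →⋆ₐ[ℂ] A) (hα : IsAct α)
    (hchar : IsEmpty (fixAlg (cenAct α hα ω) →⋆ₐ[ℂ] ℂ)) :
    ∃ θ : Z →⋆ₐ[ℂ] centralSeq A ω, ∀ z g, seqMap (α g) ω (θ z) = θ z := by
  have hsep := hZ.separable
  have hcp := hasEqCopies_cenAct α hα ω hω
  have hcp' := hasCopies_fix (cenAct α hα ω) hcp
  obtain ⟨D, hD, hdense, hpq⟩ := hZ.limit
  choose p q hp hq hc he using fun n => exists_equiv_of_isPrimeDimDrop (D n) (hpq n)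
  have h1 : ∀ n, ∃ ψ : D n →⋆ₐ[ℂ] centralSeq A ω, (∀ x, ‖ψ x‖ ≤ ‖(x : Z)‖) ∧
      ∀ x g, seqMap (α g) ω (ψ x) = ψ x := by
    intro n
    obtain ⟨e⟩ := he n
    have hp' := hp n
    have hq' := hq n
    obtain ⟨φ⟩ := exists_dimDrop_hom hcp' hchar (p n) (q n) (by omega) (by omega) (hc n)
    obtain ⟨ψ, hψ⟩ := exists_hom_of_equiv (D n) e φ
    refine ⟨(fixAlg (cenAct α hα ω)).subtype.comp ψ, fun x => hψ x, fun x g => ?_⟩
    have h2 := (ψ x).2 g
    have h3 := congrArg Subtype.val h2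
    exact h3
  choose ψ hψ hfix using h1
  exact exists_fixed_hom_of_limit hω hD hdense α ψ hψ hfix

/-- Passing from a subgroup of finite index to the whole group. -/
theorem exists_fixed_hom_of_finiteIndex {L : Type v} [Group L] [Countable L] {A Z : Type u}
    [CStarAlgebra A] [CStarAlgebra Z] [SeparableSpace A] (hZ : IsJiangSu Z)
    (ω : Ultrafilter ℕ) (hω : (ω : Filter ℕ) ≤ cofinite)
    (α : L → A →⋆ₐ[ℂ] A) (hα : IsAct α) (H : Subgroup L) (hH : H.FiniteIndex)
    (σ : Z →⋆ₐ[ℂ] centralSeq A ω) (hσ : ∀ z, ∀ h ∈ H, seqMap (α h) ω (σ z) = σ z) :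
    ∃ θ : Z →⋆ₐ[ℂ] centralSeq A ω, ∀ z g, seqMap (α g) ω (θ z) = θ z := by
  have hcp := hasEqCopies_cenAct α hα ω hω
  have hfi : H.normalCore.FiniteIndex := inferInstance
  have hfin : Finite (L ⧸ H.normalCore) := Subgroup.finite_quotient_of_finiteIndex
  refine exists_fixed_hom_of_noChar hZ ω hω α hα
    (noChar_of_finiteIndex (cenAct α hα ω) (isAct_cenAct α hα ω) H.normalCore hcp ⟨fun χ => ?_⟩)
  have hs := hZ.simple
  let τ : Z →⋆ₐ[ℂ] fixSub (cenAct α hα ω) H.normalCore :=
    σ.codRestrict _ (fun z => (mem_fixSub _ _).2 fun n hn => Subtype.ext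
      (hσ z n (H.normalCore_le hn)))
  have hinj : Function.Injective (χ.comp τ) := RingHom.injective (χ.comp τ : Z →+* ℂ)
  exact hZ.infinite_dimensional
    (FiniteDimensional.of_injective (χ.comp τ).toAlgHom.toLinearMap hinj)

/-- The action as a family of homomorphisms. -/
def actHom {G : Type v} [Group G] {A : Type u} [CStarAlgebra A] (α : Action G A) (g : G) :
    A →⋆ₐ[ℂ] A := ((α g : A ≃⋆ₐ[ℂ] A) : A →⋆ₐ[ℂ] A)

theorem isAct_actHom {G : Type v} [Group G] {A : Type u} [CStarAlgebra A] (α : Action G A) :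
    IsAct (actHom α) :=
  ⟨fun x => by change α 1 x = x; rw [map_one]; rfl,
    fun g h x => by change α (g * h) x = α g (α h x); rw [map_mul]; rfl⟩

/-- Locally fixed central copies of `Z` are enough. -/
theorem stable_of_fixed_homs (A Z : Type u) [CStarAlgebra A] [Nontrivial A] [SeparableSpace A]
    [CStarAlgebra Z] (hZ : IsJiangSu Z) (hAZ : TensorAbsorbs A Z)
    (G : Type v) [Group G] [Countable G] (α : Action G A) (ω : Ultrafilter ℕ)
    (h : ∀ K : Finset G, ∃ θ : Z →⋆ₐ[ℂ] centralSeq A ω, ∀ z, ∀ g ∈ K,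
      seqMap (actHom α g) ω (θ z) = θ z) :
    EquivariantlyStable α Z := by
  classical
  obtain ⟨T, _, i, j, hT, ⟨e⟩⟩ := hAZ
  obtain ⟨β, hβ⟩ := exists_tensor_action hZ i j hT α
  have hs := hZ.simple
  have hntZ : Nontrivial Z := inferInstance
  have hTc := hT.isTensorCompletion
  have hinj : Function.Injective i := tensor_left_injective hTc
  have hntT : Nontrivial T := hinj.nontrivial
  have hsepT : SeparableSpace T := by
    have hcont : Continuous (e : A → T) :=
      continuous_hom ((e : A ≃⋆ₐ[ℂ] T) : A →⋆ₐ[ℂ] T)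
    exact e.surjective.denseRange.separableSpace hcont
  obtain ⟨Φ, w, hw1, hw2, hw3⟩ := exists_cocycle_intertwining i hinj (actHom α) (actHom β)
    (isAct_actHom β) (fun g a => (hβ g).1 a) (by
      intro F K b ε hε
      obtain ⟨θ, hθ⟩ := h K
      exact transfer_fix hs hZ.isNuclear hZ.hasApproxInnerHalfFlip i j hTc
        (fun a => NonUnitalStarAlgHom.norm_map i hinj a) K (actHom α) (actHom β)
        (fun g a => (hβ g).1 a)
        (fun g z => (hβ g).2 z) ((centralSeq A ω).subtype.comp θ)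
        (fun a z => mem_centralSeq.1 (θ z).2 a)
        (fun g hg z => hθ z g hg) F b ε hε)
  exact ⟨T, _, i, j, β, hT, hβ, Φ, w, ⟨hw1, hw2⟩, hw3⟩

/-- Equivariantly stable actions live on `Z`-stable algebras. -/
theorem EquivariantlyStable.tensorAbsorbs {G : Type v} [Group G] {A Z : Type u} [CStarAlgebra A]
    [CStarAlgebra Z] {α : Action G A} (h : EquivariantlyStable α Z) : TensorAbsorbs A Z := by
  obtain ⟨T, _, i, j, β, hT, hβ, Φ, -⟩ := h
  exact ⟨T, _, i, j, hT, ⟨Φ⟩⟩

/-- Inner automorphisms act trivially on central sequences. -/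
theorem seqMap_inner {A : Type u} [CStarAlgebra A] (φ : A →⋆ₐ[ℂ] A) (w : A)
    (hw : w ∈ unitary A) (h : ∀ a, φ a = w * a * star w) (ω : Ultrafilter ℕ)
    {x : SeqAlg A ω} (hx : x ∈ centralSeq A ω) : seqMap φ ω x = x := by
  obtain ⟨a, rfl⟩ := Ideal.Quotient.mk_surjective x
  have h1 := mem_centralSeq.1 hx w
  rw [constSeq_apply] at h1
  have h2 : mapSeq φ a = BoundedContinuousFunction.const ℕ w * a
      * BoundedContinuousFunction.const ℕ (star w) := by
    ext n
    exact h (a n)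
  rw [seqMap_cls, h2, map_mul, map_mul, h1.eq, mul_assoc, ← map_mul]
  have h3 : BoundedContinuousFunction.const ℕ w * BoundedContinuousFunction.const ℕ (star w)
      = (1 : BoundedContinuousFunction ℕ A) := by
    ext n
    exact Unitary.mul_star_self_of_mem hw
  rw [h3, map_one, mul_one]

section main

variable (A Z : Type u) [CStarAlgebra A] [Nontrivial A] [SeparableSpace A] [CStarAlgebra Z]
    (hZ : IsJiangSu Z) (hssa : IsSSA Z) (G : Type v) [Group G] [Countable G] (α : Action G A)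

include hZ hssa in
/-- Permanence. -/
theorem stable_of_finiteIndex
    (h : ∀ K : Finset G, ∃ (L : Subgroup G) (H : Subgroup L), (K : Set G) ⊆ L ∧ H.FiniteIndex ∧
      EquivariantlyStable (α.comp (L.subtype.comp H.subtype)) Z) : EquivariantlyStable α Z := by
  have hsep := hZ.separable
  let ω : Ultrafilter ℕ := Filter.hyperfilter ℕ
  have hω : (ω : Filter ℕ) ≤ cofinite := Filter.hyperfilter_le_cofinite
  obtain ⟨_, _, -, -, h0⟩ := h ∅
  refine stable_of_fixed_homs A Z hZ h0.tensorAbsorbs G α ω fun K => ?_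
  obtain ⟨L, H, hK, hH, hst⟩ := h K
  obtain ⟨σ, hσ⟩ := exists_fixed_of_stable hssa _ hst ω hω
  obtain ⟨θ, hθ⟩ := exists_fixed_hom_of_finiteIndex hZ ω hω (fun g : L => actHom α g)
    ⟨fun x => (isAct_actHom α).one x, fun g h x => (isAct_actHom α).mul g h x⟩ H hH σ
    (fun z h hh => hσ z ⟨h, hh⟩)
  exact ⟨θ, fun z g hg => hθ z ⟨g, hK hg⟩⟩

include hZ hssa in
/-- Actions which are locally finite modulo inner automorphisms. -/
theorem stable_of_inner (hAZ : TensorAbsorbs A Z)
    (h : ∀ K : Finset G, ∃ (L : Subgroup G) (H : Subgroup L), (K : Set G) ⊆ L ∧ H.FiniteIndex ∧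
      ∀ g ∈ H, ∃ w ∈ unitary A, ∀ a, α g a = w * a * star w) : EquivariantlyStable α Z := by
  have hsep := hZ.separable
  let ω : Ultrafilter ℕ := Filter.hyperfilter ℕ
  have hω : (ω : Filter ℕ) ≤ cofinite := Filter.hyperfilter_le_cofinite
  refine stable_of_fixed_homs A Z hZ hAZ G α ω fun K => ?_
  obtain ⟨L, H, hK, hH, hin⟩ := h K
  obtain ⟨σ⟩ := exists_central_hom hssa hAZ ω hω
  obtain ⟨θ, hθ⟩ := exists_fixed_hom_of_finiteIndex hZ ω hω (fun g : L => actHom α g)
    ⟨fun x => (isAct_actHom α).one x, fun g h x => (isAct_actHom α).mul g h x⟩ H hH σ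
    (fun z g hg => by
      obtain ⟨w, hw, hw2⟩ := hin g hg
      exact seqMap_inner (actHom α g) w hw hw2 ω (σ z).2)
  exact ⟨θ, fun z g hg => hθ z ⟨g, hK hg⟩⟩

end main

end Vale.Agent.P095
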