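import Vale.Agent.P095.Basic
import Mathlib.Analysis.CStarAlgebra.GelfandNaimarkSegal

/-! # A representation with an eigenvector for the fixed-point algebra -/

open Filter Topology
open scoped InnerProductSpace ComplexOrder

noncomputable section

universe u

namespace Vale.Agent.P095

section

variable {G : Type*} [Group G] [Fintype G] {E : Type u} [CStarAlgebra E] {σ : G → E →⋆ₐ[ℂ] E}

/-- The sum over the group. -/
def tr (σ : G → E →⋆ₐ[ℂ] E) (x : E) : E := ∑ g, σ g x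

theorem tr_mem (hσ : IsAct σ) (x : E) : tr σ x ∈ fixAlg σ := by
  intro h
  unfold tr
  rw [map_sum]
  simp only [← hσ.mul]
  exact Fintype.sum_equiv (Equiv.mulLeft h) _ _ fun g => rfl

omit [Group G] in
theorem tr_of_fixed {x : E} (hx : x ∈ fixAlg σ) : tr σ x = (Fintype.card G : ℂ) • x := by
  unfold tr
  rw [Finset.sum_congr rfl fun g _ => hx g]
  rw [Finset.sum_const, Finset.card_univ, Nat.cast_smul_eq_nsmul]

omit [Group G] [Fintype G] in
/-- Characters of the fixed-point algebra are nonnegative on elements that are nonnegative in the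
big algebra. -/
theorem char_nonneg [PartialOrder E] [StarOrderedRing E] (χ : fixAlg σ →⋆ₐ[ℂ] ℂ) {x : E}
    (hx : 0 ≤ x) (hf : x ∈ fixAlg σ) : 0 ≤ χ ⟨x, hf⟩ := by
  have hs : CFC.sqrt x ∈ fixAlg σ := by
    intro g
    have h1 : σ g (CFC.sqrt x) * σ g (CFC.sqrt x) = x := by
      rw [← map_mul, CFC.sqrt_mul_sqrt_self x hx]
      exact hf g
    have h2 : 0 ≤ σ g (CFC.sqrt x) := map_nonneg (σ g) (CFC.sqrt_nonneg x)
    exact (CFC.sqrt_unique h1 h2).symm
  have hsa : star (CFC.sqrt x) = CFC.sqrt x := (IsSelfAdjoint.of_nonneg (CFC.sqrt_nonneg x)).star_eq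
  have h1 : (⟨x, hf⟩ : fixAlg σ) = star ⟨CFC.sqrt x, hs⟩ * ⟨CFC.sqrt x, hs⟩ := by
    apply Subtype.ext
    change x = star (CFC.sqrt x) * CFC.sqrt x
    rw [hsa, CFC.sqrt_mul_sqrt_self x hx]
  rw [h1, map_mul, map_star]
  exact star_mul_self_nonneg _

/-- The invariant state extending a character of the fixed-point algebra. -/
def statePos [PartialOrder E] [StarOrderedRing E] (hσ : IsAct σ) (χ : fixAlg σ →⋆ₐ[ℂ] ℂ) :
    E →ₚ[ℂ] ℂ :=
  PositiveLinearMap.mk₀
    { toFun := fun x => χ ⟨tr σ x, tr_mem hσ x⟩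
      map_add' := by
        intro x y
        rw [← map_add]
        congr 1
        apply Subtype.ext
        change tr σ (x + y) = tr σ x + tr σ y
        unfold tr
        simp only [map_add, Finset.sum_add_distrib]
      map_smul' := by
        intro c x
        rw [RingHom.id_apply, ← map_smul]
        congr 1
        apply Subtype.ext
        change tr σ (c • x) = c • tr σ x
        unfold tr
        simp only [map_smul, Finset.smul_sum] }
    (by
      intro x hx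
      refine char_nonneg χ ?_ _
      unfold tr
      exact Finset.sum_nonneg fun g _ => map_nonneg (σ g) hx)

theorem statePos_apply [PartialOrder E] [StarOrderedRing E] (hσ : IsAct σ)
    (χ : fixAlg σ →⋆ₐ[ℂ] ℂ) (x : E) : statePos hσ χ x = χ ⟨tr σ x, tr_mem hσ x⟩ := rfl

theorem exists_rep (hσ : IsAct σ) (χ : fixAlg σ →⋆ₐ[ℂ] ℂ) :
    ∃ (H : Type u) (_ : NormedAddCommGroup H) (_ : InnerProductSpace ℂ H) (_ : CompleteSpace H)
      (π : E →⋆ₐ[ℂ] (H →L[ℂ] H)) (Ω : H), Ω ≠ 0 ∧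
      ∀ T (hT : T ∈ fixAlg σ), π T Ω = χ ⟨T, hT⟩ • Ω := by
  let _ := CStarAlgebra.spectralOrder E
  have _ := CStarAlgebra.spectralOrderedRing E
  let f := statePos hσ χ
  have hfix : ∀ T (hT : T ∈ fixAlg σ), f T = (Fintype.card G : ℂ) * χ ⟨T, hT⟩ := by
    intro T hT
    change χ ⟨tr σ T, tr_mem hσ T⟩ = _
    have h1 : (⟨tr σ T, tr_mem hσ T⟩ : fixAlg σ) = (Fintype.card G : ℂ) • ⟨T, hT⟩ :=
      Subtype.ext (tr_of_fixed hT)
    rw [h1, map_smul, smul_eq_mul]
  have hnorm : ∀ T (hT : T ∈ fixAlg σ), χ ⟨T, hT⟩ = 0 → ‖f.toPreGNS T‖ = 0 := by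
    intro T hT h0
    rw [← sq_eq_zero_iff]
    have h2 := f.preGNS_norm_sq (f.toPreGNS T)
    rw [f.ofPreGNS_toPreGNS, hfix _ (mul_mem (star_mem hT) hT)] at h2
    have h3 : (⟨star T * T, mul_mem (star_mem hT) hT⟩ : fixAlg σ) = star ⟨T, hT⟩ * ⟨T, hT⟩ := rfl
    rw [h3, map_mul, h0, mul_zero, mul_zero] at h2
    exact_mod_cast h2
  refine ⟨f.GNS, inferInstance, inferInstance, inferInstance, f.gnsStarAlgHom,
    ((f.toPreGNS 1 : f.PreGNS) : f.GNS), ?_, ?_⟩
  · intro h0
    have h1 : ‖((f.toPreGNS 1 : f.PreGNS) : f.GNS)‖ = 0 := by rw [h0, norm_zero]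
    rw [UniformSpace.Completion.norm_coe] at h1
    have h2 := f.preGNS_norm_sq (f.toPreGNS 1)
    rw [h1, f.ofPreGNS_toPreGNS, star_one, one_mul, hfix 1 (one_mem _)] at h2
    have h3 : (⟨1, one_mem _⟩ : fixAlg σ) = 1 := rfl
    rw [h3, map_one, mul_one] at h2
    have h4 : (Fintype.card G : ℂ) = 0 := by
      rw [← h2]
      norm_num
    have h5 : Fintype.card G ≠ 0 := Fintype.card_ne_zero
    exact h5 (by exact_mod_cast h4)
  · intro T hT
    have h1 : f.gnsStarAlgHom T ((f.toPreGNS 1 : f.PreGNS) : f.GNS) =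
        ((f.toPreGNS T : f.PreGNS) : f.GNS) := by
      change f.gnsNonUnitalStarAlgHom T _ = _
      rw [f.gnsNonUnitalStarAlgHom_apply_coe, f.leftMulMapPreGNS_apply, f.ofPreGNS_toPreGNS,
        mul_one]
    rw [h1, ← UniformSpace.Completion.coe_smul, ← sub_eq_zero, ← UniformSpace.Completion.coe_sub,
      ← norm_eq_zero, UniformSpace.Completion.norm_coe, ← map_smul, ← map_sub]
    have h2 : T - χ ⟨T, hT⟩ • (1 : E) ∈ fixAlg σ :=
      sub_mem hT (SMulMemClass.smul_mem _ (one_mem _))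
    refine hnorm _ h2 ?_
    have h3 : (⟨T - χ ⟨T, hT⟩ • (1 : E), h2⟩ : fixAlg σ) = ⟨T, hT⟩ - χ ⟨T, hT⟩ • 1 := rfl
    rw [h3, map_sub, map_smul, map_one, smul_eq_mul, mul_one, sub_self]

end

end Vale.Agent.P095
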