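import Vale.Agent.P101.JiangSu

/-! # Equivariant Jiang–Su stability -/

open scoped TensorProduct

noncomputable section

universe u v

namespace Vale.Agent.P095

open Vale.Agent.P101

/-- `Z` is strongly self-absorbing (Toms and Winter): there is an isomorphism `Z ≅ Z ⊗ Z` which is
approximately unitarily equivalent to the first factor embedding `z ↦ z ⊗ 1`. -/
def IsStronglySelfAbsorbing (Z : Type u) [CStarAlgebra Z] : Prop :=
  ∃ (T : Type u) (_ : CStarAlgebra T) (i j e : Hom Z T),
    IsMinTensor i j ∧ Function.Bijective e ∧ ApproxUnitarilyEquiv e i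

variable {G : Type v} [Group G] {A B T Z : Type u} [CStarAlgebra A] [CStarAlgebra B]
  [CStarAlgebra T] [CStarAlgebra Z]

/-- An action of the group `G` on `A`: a homomorphism from `G` to the automorphism group. -/
abbrev Action (G : Type v) [Group G] (A : Type u) [CStarAlgebra A] : Type (max u v) :=
  G →* (A ≃⋆ₐ[ℂ] A)

/-- `u` is a `β`-cocycle. -/
def IsCocycle (β : Action G B) (u : G → B) : Prop :=
  (∀ g, u g ∈ unitary B) ∧ ∀ g h, u (g * h) = u g * β g (u h)

/-- `α` and `β` are cocycle conjugate. -/
def CocycleConjugate (α : Action G A) (β : Action G B) : Prop :=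
  ∃ (Φ : A ≃⋆ₐ[ℂ] B) (u : G → B), IsCocycle β u ∧
    ∀ g a, Φ (α g a) = u g * β g (Φ a) * star (u g)

/-- `β` is the action `α ⊗ id_Z` on the tensor product `T` of `A` and `Z`, with the canonical
maps `i : A → T` and `j : Z → T`. -/
def IsTensorAction (i : Hom A T) (j : Hom Z T) (α : Action G A) (β : Action G T) : Prop :=
  ∀ g, (∀ a, β g (i a) = i (α g a)) ∧ ∀ z, β g (j z) = j z

/-- `α` is cocycle conjugate to the action `α ⊗ id_Z` on the minimal tensor product `A ⊗ Z`. -/
def EquivariantlyStable (α : Action G A) (Z : Type u) [CStarAlgebra Z] : Prop :=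
  ∃ (T : Type u) (_ : CStarAlgebra T) (i : Hom A T) (j : Hom Z T) (β : Action G T),
    IsMinTensor i j ∧ IsTensorAction i j α β ∧ CocycleConjugate α β

end Vale.Agent.P095
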