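import Vale.Agent.P095.Statement
import Vale.Agent.P101.JSBridge

/-! # [E6] if `A ≅ A ⊗ Z` then `Z` maps to `F_ω(A)`, so `F_ω(A)` has no characters -/

open Filter Topology TopologicalSpace BoundedContinuousFunction
open scoped TensorProduct

noncomputable section

universe u

namespace Vale.Agent.P095

open Vale.Agent.P101

/-- Strong self-absorption, with a `*`-isomorphism. -/
def IsSSA (Z : Type u) [CStarAlgebra Z] : Prop :=
  ∃ (T : Type u) (_ : CStarAlgebra T) (i j : Hom Z T) (e : Z ≃⋆ₐ[ℂ] T),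
    IsMinTensor i j ∧ ApproxUnitarilyEquiv (e : Hom Z T) i

theorem IsStronglySelfAbsorbing.isSSA {Z : Type u} [CStarAlgebra Z]
    (h : IsStronglySelfAbsorbing Z) : IsSSA Z := by
  obtain ⟨T, _, i, j, e, hT, he, ha⟩ := h
  exact ⟨T, _, i, j, StarAlgEquiv.ofBijective e he, hT, ha⟩

/-- A sequence of homomorphisms as a homomorphism to bounded sequences. -/
def seqHom {Z B : Type*} [CStarAlgebra Z] [CStarAlgebra B] (ρ : ℕ → Z →⋆ₐ[ℂ] B) :
    Z →⋆ₐ[ℂ] (ℕ →ᵇ B) where
  toFun := fun z => BoundedContinuousFunction.ofNormedAddCommGroup (fun n => ρ n z)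
    continuous_of_discreteTopology ‖z‖ (fun n => NonUnitalStarAlgHom.norm_apply_le (ρ n) z)
  map_one' := by ext n; exact map_one (ρ n)
  map_mul' := fun a b => by ext n; exact map_mul (ρ n) _ _
  map_zero' := by ext n; exact map_zero (ρ n)
  map_add' := fun a b => by ext n; exact map_add (ρ n) _ _
  commutes' := fun r => by ext n; exact AlgHomClass.commutes (ρ n) r
  map_star' := fun a => by ext n; exact map_star (ρ n) _

theorem seqHom_apply {Z B : Type*} [CStarAlgebra Z] [CStarAlgebra B] (ρ : ℕ → Z →⋆ₐ[ℂ] B)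
    (z : Z) (n : ℕ) : seqHom ρ z n = ρ n z := rfl

/-- asymptotically central sequences of homomorphisms -/
def AC {Z B : Type*} [CStarAlgebra Z] [CStarAlgebra B] (ρ : ℕ → Z →⋆ₐ[ℂ] B) : Prop :=
  ∀ z b, Tendsto (fun n => ‖ρ n z * b - b * ρ n z‖) atTop (𝓝 0)

theorem exists_of_AC {Z B : Type*} [CStarAlgebra Z] [CStarAlgebra B] {ρ : ℕ → Z →⋆ₐ[ℂ] B}
    (h : AC ρ) (ω : Ultrafilter ℕ) (hω : (ω : Filter ℕ) ≤ cofinite) :
    Nonempty (Z →⋆ₐ[ℂ] centralSeq B ω) := by
  rw [Nat.cofinite_eq_atTop] at hω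
  refine ⟨((clsHom B ω).comp (seqHom ρ)).codRestrict (centralSeq B ω) fun z => ?_⟩
  rw [mem_centralSeq]
  intro b
  change cls ω (BoundedContinuousFunction.const ℕ b) * cls ω (seqHom ρ z)
    = cls ω (seqHom ρ z) * cls ω (BoundedContinuousFunction.const ℕ b)
  rw [← map_mul, ← map_mul, cls_eq_cls]
  refine ((h z b).mono_left hω).congr fun n => ?_
  change ‖ρ n z * b - b * ρ n z‖ = ‖b * ρ n z - ρ n z * b‖
  exact norm_sub_rev _ _

/-- the commutant property is closed in the second variable -/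
theorem AC_closed {Z B : Type*} [CStarAlgebra Z] [CStarAlgebra B] (ρ : ℕ → Z →⋆ₐ[ℂ] B)
    (S : Set B) (hS : Dense S)
    (h : ∀ z, ∀ b ∈ S, Tendsto (fun n => ‖ρ n z * b - b * ρ n z‖) atTop (𝓝 0)) : AC ρ := by
  intro z b
  rw [Metric.tendsto_atTop]
  intro ε hε
  have hz : 0 < 2 * (‖z‖ + 1) := by positivity
  obtain ⟨c, hc, hcS⟩ := Metric.dense_iff.1 hS b (ε / 2 / (2 * (‖z‖ + 1))) (by positivity)
  obtain ⟨N, hN⟩ := (Metric.tendsto_atTop.1 (h z c hcS)) (ε / 2) (by positivity)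
  refine ⟨N, fun n hn => ?_⟩
  have h1 := hN n hn
  rw [Real.dist_eq, sub_zero, abs_of_nonneg (norm_nonneg _)] at h1 ⊢
  have hb : ‖b - c‖ < ε / 2 / (2 * (‖z‖ + 1)) := by
    rw [Metric.mem_ball, dist_comm, dist_eq_norm] at hc
    exact hc
  have e1 : ρ n z * b - b * ρ n z = (ρ n z * c - c * ρ n z)
      + (ρ n z * (b - c) - (b - c) * ρ n z) := by noncomm_ring
  have hρ : ‖ρ n z‖ ≤ ‖z‖ := NonUnitalStarAlgHom.norm_apply_le (ρ n) z
  have e2 : ‖ρ n z * (b - c) - (b - c) * ρ n z‖ ≤ 2 * ‖z‖ * ‖b - c‖ := by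
    calc _ ≤ ‖ρ n z * (b - c)‖ + ‖(b - c) * ρ n z‖ := norm_sub_le _ _
      _ ≤ ‖ρ n z‖ * ‖b - c‖ + ‖b - c‖ * ‖ρ n z‖ := add_le_add (norm_mul_le _ _) (norm_mul_le _ _)
      _ ≤ ‖z‖ * ‖b - c‖ + ‖b - c‖ * ‖z‖ := by gcongr
      _ = _ := by ring
  have e3 : 2 * ‖z‖ * ‖b - c‖ < ε / 2 := by
    have h3 : 2 * ‖z‖ * ‖b - c‖ ≤ 2 * (‖z‖ + 1) * ‖b - c‖ := by
      gcongr
      linarith
    have h4 : 2 * (‖z‖ + 1) * ‖b - c‖ < ε / 2 := by
      rw [lt_div_iff₀ hz] at hb
      linarith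
    linarith
  rw [e1]
  calc _ ≤ ‖ρ n z * c - c * ρ n z‖ + ‖ρ n z * (b - c) - (b - c) * ρ n z‖ := norm_add_le _ _
    _ < ε / 2 + ε / 2 := by linarith
    _ = ε := by ring

/-- a strongly self-absorbing algebra has asymptotically central endomorphisms -/
theorem exists_AC_self {Z : Type u} [CStarAlgebra Z] [SeparableSpace Z]
    (hssa : IsSSA Z) : ∃ θ : ℕ → Z →⋆ₐ[ℂ] Z, AC θ := by
  classical
  obtain ⟨T, _, i, j, e, hT, hU⟩ := hssa
  have hcomm : ∀ a b, i a * j b = j b * i a := hT.1.1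
  let d := denseSeq Z
  have hv : ∀ n : ℕ, ∃ v : T, v ∈ unitary T ∧ ∀ k ≤ n,
      ‖v * e (d k) * star v - i (d k)‖ < 1 / (n + 1 : ℝ) := by
    intro n
    obtain ⟨v, hv⟩ := hU ((Finset.range (n + 1)).image d) (1 / (n + 1 : ℝ)) (by positivity)
    have hm : ∀ k ≤ n, d k ∈ (Finset.range (n + 1)).image d := fun k hk =>
      Finset.mem_image_of_mem _ (Finset.mem_range.2 (Nat.lt_succ_of_le hk))
    exact ⟨v, (hv (d 0) (hm 0 (Nat.zero_le n))).1, fun k hk => (hv (d k) (hm k hk)).2⟩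
  choose v hvu hvn using hv
  -- conjugation by `star (v n)`
  let c : ℕ → T →⋆ₐ[ℂ] T := fun n =>
    { toFun := fun t => star (v n) * t * v n
      map_one' := by
        rw [mul_one]; exact Unitary.star_mul_self_of_mem (hvu n)
      map_mul' := fun s t => by
        have h1 : v n * star (v n) = 1 := Unitary.mul_star_self_of_mem (hvu n)
        calc star (v n) * (s * t) * v n = star (v n) * s * 1 * t * v n := by noncomm_ring
          _ = star (v n) * s * (v n * star (v n)) * t * v n := by rw [h1]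
          _ = _ := by noncomm_ring
      map_zero' := by rw [mul_zero, zero_mul]
      map_add' := fun s t => by rw [mul_add, add_mul]
      commutes' := fun r => by
        have h1 : star (v n) * v n = 1 := Unitary.star_mul_self_of_mem (hvu n)
        rw [← Algebra.commutes, mul_assoc, h1, mul_one]
      map_star' := fun t => by rw [star_mul, star_mul, star_star, mul_assoc] }
  let θ : ℕ → Z →⋆ₐ[ℂ] Z := fun n => ((e.symm : T →⋆ₐ[ℂ] Z).comp (c n)).comp j
  have hθ : ∀ n z, e (θ n z) = star (v n) * j z * v n := by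
    intro n z
    exact e.apply_symm_apply _
  refine ⟨θ, AC_closed θ (Set.range d) (denseRange_denseSeq Z) ?_⟩
  rintro z _ ⟨k, rfl⟩
  have hlim : Tendsto (fun n : ℕ => 2 * ‖z‖ * (1 / (n + 1 : ℝ))) atTop (𝓝 0) := by
    simpa using tendsto_one_div_add_atTop_nhds_zero_nat.const_mul (2 * ‖z‖)
  refine squeeze_zero' (Eventually.of_forall fun n => norm_nonneg _) ?_ hlim
  filter_upwards [eventually_ge_atTop k] with n hn
  have hiso : ∀ x : Z, ‖e x‖ = ‖x‖ := fun x =>
    NonUnitalStarAlgHom.norm_map (e : Z →⋆ₐ[ℂ] T) e.injective x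
  rw [← hiso, map_sub, map_mul, map_mul, hθ]
  have h1 : v n * star (v n) = 1 := Unitary.mul_star_self_of_mem (hvu n)
  have h2 : star (v n) * v n = 1 := Unitary.star_mul_self_of_mem (hvu n)
  set w := v n with hw
  set y := w * e (d k) * star w - i (d k) with hy
  have hyn : ‖y‖ ≤ 1 / (n + 1 : ℝ) := (hvn n k hn).le
  have e1 : e (d k) = star w * (y + i (d k)) * w := by
    rw [hy, sub_add_cancel]
    calc e (d k) = (star w * w) * e (d k) * (star w * w) := by rw [h2, one_mul, mul_one]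
      _ = _ := by noncomm_ring
  have e2 : star w * j z * w * e (d k) - e (d k) * (star w * j z * w)
      = star w * (j z * y - y * j z) * w := by
    rw [e1]
    calc _ = star w * j z * (w * star w) * (y + i (d k)) * w
          - star w * (y + i (d k)) * (w * star w) * j z * w := by noncomm_ring
      _ = star w * (j z * y - y * j z) * w
          + star w * (j z * i (d k) - i (d k) * j z) * w := by rw [h1]; noncomm_ring
      _ = _ := by rw [hcomm (d k) z, sub_self, mul_zero, zero_mul, add_zero]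
  rw [e2, CStarRing.norm_mul_mem_unitary _ (hvu n),
    CStarRing.norm_mem_unitary_mul _ (Unitary.star_mem (hvu n))]
  have hj : ‖j z‖ ≤ ‖z‖ := NonUnitalStarAlgHom.norm_apply_le j z
  calc ‖j z * y - y * j z‖ ≤ ‖j z * y‖ + ‖y * j z‖ := norm_sub_le _ _
    _ ≤ ‖j z‖ * ‖y‖ + ‖y‖ * ‖j z‖ := add_le_add (norm_mul_le _ _) (norm_mul_le _ _)
    _ ≤ ‖z‖ * (1 / (n + 1 : ℝ)) + (1 / (n + 1 : ℝ)) * ‖z‖ := by gcongr
    _ = _ := by ring

theorem exists_central_hom {A Z : Type u} [CStarAlgebra A] [CStarAlgebra Z] [SeparableSpace Z]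
    (hssa : IsSSA Z) (hAZ : TensorAbsorbs A Z) (ω : Ultrafilter ℕ)
    (hω : (ω : Filter ℕ) ≤ cofinite) : Nonempty (Z →⋆ₐ[ℂ] centralSeq A ω) := by
  obtain ⟨θ, hθ⟩ := exists_AC_self hssa
  obtain ⟨T, _, i, j, hT, ⟨s⟩⟩ := hAZ
  have hcomm : ∀ a b, i a * j b = j b * i a := hT.1.1
  -- asymptotically central in `T`
  have hTc : AC (fun n => j.comp (θ n)) := by
    refine AC_closed _ (Set.range (tmap i j)) hT.2.1 ?_
    rintro z _ ⟨(x : A ⊗[ℂ] Z), rfl⟩
    induction x with
    | zero => simp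
    | add x y hx hy =>
      rw [map_add]
      have h1 := hx.add hy
      rw [add_zero] at h1
      refine squeeze_zero (fun n => norm_nonneg _) (fun n => ?_) h1
      refine le_trans (le_of_eq ?_) (norm_add_le _ _)
      congr 1
      noncomm_ring
    | tmul a b =>
      have h1 := (hθ z b).const_mul ‖i a‖
      rw [mul_zero] at h1
      refine squeeze_zero (fun n => norm_nonneg _) (fun n => ?_) h1
      have e1 : tmap i j (a ⊗ₜ b) = i a * j b := rfl
      rw [e1]
      change ‖j (θ n z) * (i a * j b) - i a * j b * j (θ n z)‖ ≤ _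
      have e2 : j (θ n z) * (i a * j b) - i a * j b * j (θ n z)
          = i a * j (θ n z * b - b * θ n z) := by
        rw [map_sub, map_mul, map_mul, ← mul_assoc, ← hcomm a (θ n z)]
        noncomm_ring
      rw [e2]
      exact (norm_mul_le _ _).trans (mul_le_mul_of_nonneg_left
        (NonUnitalStarAlgHom.norm_apply_le j _) (norm_nonneg _))
  have hAc : AC (fun n => (s.symm : T →⋆ₐ[ℂ] A).comp (j.comp (θ n))) := by
    intro z a
    refine squeeze_zero (fun n => norm_nonneg _) (fun n => ?_) (hTc z (s a))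
    change ‖s.symm (j (θ n z)) * a - a * s.symm (j (θ n z))‖ ≤
      ‖j (θ n z) * s a - s a * j (θ n z)‖
    have e1 : s.symm (j (θ n z)) * a - a * s.symm (j (θ n z))
        = (s.symm : T →⋆ₐ[ℂ] A) (j (θ n z) * s a - s a * j (θ n z)) := by
      change _ = s.symm (j (θ n z) * s a - s a * j (θ n z))
      rw [map_sub, map_mul, map_mul, s.symm_apply_apply]
    rw [e1]
    exact NonUnitalStarAlgHom.norm_apply_le _ _
  exact exists_of_AC hAc ω hω

theorem noChar_centralSeq {A Z : Type u} [CStarAlgebra A] [CStarAlgebra Z] (hZ : IsJiangSu Z)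
    (hssa : IsSSA Z) (hAZ : TensorAbsorbs A Z) (ω : Ultrafilter ℕ)
    (hω : (ω : Filter ℕ) ≤ cofinite) : IsEmpty (centralSeq A ω →⋆ₐ[ℂ] ℂ) := by
  have := hZ.separable
  obtain ⟨σ⟩ := exists_central_hom hssa hAZ ω hω
  refine ⟨fun χ => hZ.infinite_dimensional ?_⟩
  have hs := hZ.simple
  have hinj : Function.Injective (χ.comp σ) := RingHom.injective (χ.comp σ : Z →+* ℂ)
  exact FiniteDimensional.of_injective (χ.comp σ).toAlgHom.toLinearMap hinj

end Vale.Agent.P095
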